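import Vale.Agent.P166.Free.Limit

/-!
Tools for passing limits of spectra along a sequence of laws.
-/

open MeasureTheory Filter Topology Finset

namespace Vale.Agent.P166.Levy

open Free (tdv tdv_mem lipschitz_tdv)

/-- A diagonal index. -/
theorem diag {p : ℕ → ℕ → Prop} (h : ∀ j, ∀ᶠ N in atTop, p j N) :
    ∃ J : ℕ → ℕ, ∀ j, ∀ᶠ N in atTop, j ≤ J N ∧ p (J N) N := by
  classical
  refine ⟨fun N => Nat.findGreatest (fun j => p j N) N, fun j => ?_⟩
  filter_upwards [h j, eventually_ge_atTop j] with N hN hj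
  exact ⟨Nat.le_findGreatest hj hN, Nat.findGreatest_spec (P := fun j => p j N) hj hN⟩

/-- Convergence in mean square gives convergence of the truncated deviation. -/
theorem tdv_of_sq {Ω : ℕ → Type*} [∀ N, MeasurableSpace (Ω N)] (P : ∀ N, Measure (Ω N))
    [∀ N, IsProbabilityMeasure (P N)] (f : ∀ N, Ω N → ℝ) (L : ℝ)
    (hi : ∀ᶠ N in atTop, Integrable (fun x => (f N x - L) ^ 2) (P N))
    (h : Tendsto (fun N => ∫ x, (f N x - L) ^ 2 ∂P N) atTop (𝓝 0)) :
    Tendsto (fun N => ∫ x, tdv L (f N x) ∂P N) atTop (𝓝 0) := by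
  rw [Metric.tendsto_nhds]
  intro ε hε
  filter_upwards [hi, h.eventually (gt_mem_nhds (show (0 : ℝ) < ε ^ 2 / 4 by positivity))] with N hN1 hN2
  rw [Real.dist_eq, sub_zero, abs_of_nonneg (integral_nonneg fun x => (tdv_mem L _).1)]
  refine lt_of_le_of_lt (integral_mono_of_nonneg (ae_of_all _ fun x => (tdv_mem L _).1)
    ((hN1.div_const ε).fun_add (integrable_const (ε / 4))) (ae_of_all _ fun x => ?_)) ?_
  · refine (min_le_left _ _).trans ?_
    simp only
    rw [div_add' _ _ _ hε.ne', le_div_iff₀ hε]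
    nlinarith [sq_nonneg (|f N x - L| - ε / 2), sq_abs (f N x - L)]
  · rw [integral_add (hN1.div_const ε) (integrable_const _), integral_div, integral_const, probReal_univ,
      one_smul]
    have : (∫ x, (f N x - L) ^ 2 ∂P N) / ε < ε / 4 := by
      rw [div_lt_iff₀ hε]; nlinarith [hN2]
    linarith

variable {law : ∀ N : ℕ, Measure (Fin N → Fin N → ℝ)} [∀ N, IsProbabilityMeasure (law N)]
  {β L : ℝ} {a : ∀ N : ℕ, Fin N → ℝ}

theorem integrable_tdv (L : ℝ) (N : ℕ) (x : Fin N → ℝ) :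
    Integrable (fun U => tdv L (pr β x U)) (law N) :=
  Integrable.of_bound ((lipschitz_tdv L).continuous.measurable.comp (measurable_pr _)).aestronglyMeasurable 1
    (ae_of_all _ fun U => by rw [Real.norm_eq_abs, abs_of_nonneg (tdv_mem L _).1]; exact (tdv_mem L _).2)

/-- For uniformly bounded spectra the truncated deviation controls the mean square. -/
theorem sq_of_tdv (hgood : ∀ N, ∀ᵐ U ∂law N, Good U) (hβ : 0 ≤ β) {K : ℝ}
    (ha : ∀ᶠ N in atTop, ∀ i, |a N i| ≤ K)
    (h : Tendsto (fun N => ∫ U, tdv L (pr β (a N) U) ∂law N) atTop (𝓝 0)) :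
    Tendsto (fun N => ∫ U, (pr β (a N) U - L) ^ 2 ∂law N) atTop (𝓝 0) := by
  set B := (β / 2 * K + |L| + 1) ^ 2
  refine squeeze_zero' (Eventually.of_forall fun N => integral_nonneg fun U => sq_nonneg _) ?_
    (by simpa using h.const_mul B)
  filter_upwards [eventually_gt_atTop 0, ha] with N hN hN1
  rw [← integral_const_mul]
  refine integral_mono_of_nonneg (ae_of_all _ fun U => sq_nonneg _) ((integrable_tdv L N _).const_mul B)
    ((hgood N).mono fun U hU => ?_)
  have hb := abs_pr_le (β := β) hN hU hN1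
  rw [abs_of_nonneg hβ] at hb
  set d := |pr β (a N) U - L|
  set c := β / 2 * K + |L|
  have hd0 : 0 ≤ d := abs_nonneg _
  have hdc : d ≤ c := (abs_sub _ _).trans (add_le_add hb le_rfl)
  simp only
  rw [← sq_abs, tdv]
  rcases min_choice d 1 with h | h
  · rw [h]
    calc d ^ 2 = d * d := pow_two d
      _ ≤ B * d := mul_le_mul_of_nonneg_right (by
          calc d ≤ c + 1 := by linarith
            _ ≤ B := le_self_pow₀ (show 1 ≤ c + 1 by have : 0 ≤ c := hd0.trans hdc; linarith) two_ne_zero) hd0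
  · rw [h, mul_one]
    exact pow_le_pow_left₀ hd0 (hdc.trans (le_add_of_nonneg_right zero_le_one)) 2

theorem pr_add_const {N : ℕ} (hN : 0 < N) {U : Fin N → Fin N → ℝ} (hU : Good U) (x : Fin N → ℝ) (c : ℝ) :
    pr β (fun i => x i + c) U = pr β x U + β / 2 * c := by
  have e : ∀ σ, wgt β (fun i => x i + c) U σ = Real.exp (β / 2 * c * N) * wgt β x U σ := fun σ => by
    rw [wgt, wgt, ← Real.exp_add]
    congr 1
    simp only [add_mul, Finset.sum_add_distrib, ← Finset.mul_sum, hU σ]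
    ring
  have hN' : (N : ℝ) ≠ 0 := Nat.cast_ne_zero.2 hN.ne'
  have hs := wsum_pos (β := β) x U
  simp only [pr, e, ← Finset.mul_sum]
  rw [← mul_assoc, mul_comm ((2 : ℝ) ^ N)⁻¹, mul_assoc,
    Real.log_mul (Real.exp_pos _).ne' (mul_pos (by positivity) hs).ne', Real.log_exp]
  field_simp
  ring

/-- Truncated deviations for nearby centres. -/
theorem tdv_le (L L' x : ℝ) : tdv L x ≤ tdv L' x + |L - L'| := by
  simp only [tdv]
  rw [← min_add_add_right]
  refine min_le_min ?_ (by linarith [abs_nonneg (L - L')])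
  have := abs_sub_le x L' L
  rw [abs_sub_comm L' L] at this
  exact this

/-- A compactly supported law has an upper end. -/
theorem exists_top_end {μ : Measure ℝ} [IsProbabilityMeasure μ] {B : ℝ} (hB : ∀ᵐ x ∂μ, |x| ≤ B) :
    ∃ e, (∀ᵐ x ∂μ, x ≤ e) ∧ ∀ η, 0 < η → 0 < μ (Set.Ioi (e - η)) := by
  set S : Set ℝ := {t | μ (Set.Ioi t) = 0}
  have hBS : B ∈ S := by
    refine measure_mono_null (fun x (hx : B < x) => ?_) (ae_iff.1 hB)
    exact fun h => absurd ((le_abs_self x).trans h) (not_le.2 hx)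
  have hlow : ∀ t ∈ S, -B ≤ t := fun t ht => by
    by_contra h
    push Not at h
    have : ∀ᵐ x ∂μ, x ∈ Set.Ioi t := hB.mono fun x hx => lt_of_lt_of_le h (abs_le.1 hx).1
    have h1 : μ (Set.Ioi t) = μ Set.univ := measure_congr (eventuallyEq_univ.2 this)
    rw [ht, measure_univ] at h1
    exact zero_ne_one h1
  set e := sInf S
  have hne : S.Nonempty := ⟨B, hBS⟩
  have hbb : BddBelow S := ⟨-B, hlow⟩
  refine ⟨e, ?_, fun η hη => ?_⟩
  · have h : ∀ n : ℕ, ∀ᵐ x ∂μ, x ≤ e + 1 / ((n : ℝ) + 1) := fun n => by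
      obtain ⟨t, ht, hlt⟩ := exists_lt_of_csInf_lt hne
        (show e < e + 1 / ((n : ℝ) + 1) from lt_add_of_pos_right e (by positivity))
      rw [ae_iff]
      exact measure_mono_null (fun x (hx : ¬ x ≤ _) => lt_trans hlt (not_le.1 hx)) ht
    filter_upwards [ae_all_iff.2 h] with x hx
    refine le_of_forall_pos_le_add fun δ hδ => ?_
    obtain ⟨n, hn⟩ := exists_nat_one_div_lt hδ
    linarith [hx n]
  · refine pos_iff_ne_zero.2 fun h => ?_
    linarith [csInf_le hbb (show e - η ∈ S from h)]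

/-- The upper end lies below every upper bound. -/
theorem top_le_of_ae {μ : Measure ℝ} {e b : ℝ} (htop : ∀ η, 0 < η → 0 < μ (Set.Ioi (e - η)))
    (hb : ∀ᵐ x ∂μ, x ≤ b) : e ≤ b := by
  refine le_of_forall_pos_le_add fun η hη => ?_
  by_contra hc
  push Not at hc
  refine (htop η hη).ne' (measure_mono_null (fun x (hx : e - η < x) => ?_) (ae_iff.1 hb))
  simp only [Set.mem_ofPred_eq, not_le]
  linarith

end Vale.Agent.P166.Levy
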