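import Vale.Agent.P166.Levy.Discrete
import Vale.Agent.P166.Levy.Tools

/-!
Approximation of a Lévy pair by finitely atomic ones, with spectra and pressures.
-/

open MeasureTheory Filter Topology Complex

namespace Vale.Agent.P166.Levy

open Free (tdv)

variable {γ β r : ℝ} {σ : Measure ℝ}

/-- Data of one approximation step: the law, its upper end and the pressure for every law of the
rotation, together with spectra in the interval `[-(B + 1), B + 1]`. -/
structure Step (γ β B : ℝ) (σ μ : Measure ℝ) (e L : ℝ) : Prop where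
  prob : IsProbabilityMeasure μ
  lev : Lev γ σ μ
  supp : ∀ᵐ y ∂μ, |y| ≤ B
  le_top : ∀ᵐ y ∂μ, y ≤ e
  top : ∀ η, 0 < η → 0 < μ (Set.Ioi (e - η))
  spectra : ∀ (law : ∀ N : ℕ, Measure (Fin N → Fin N → ℝ)), (∀ N, IsProbabilityMeasure (law N)) →
    (∀ N, LeftInv (law N)) → ∃ l : ∀ N : ℕ, Fin N → ℝ, EmpTo μ l ∧
      (∀ η, 0 < η → ∀ᶠ N in atTop, ∀ i, l N i ≤ e + η) ∧ (∀ᶠ N in atTop, ∀ i, |l N i| ≤ B + 1) ∧
      Tendsto (fun N => ∫ U, tdv L (pr β (l N) U) ∂law N) atTop (𝓝 0)

theorem exists_step [IsFiniteMeasure σ] (γ : ℝ) {ψ : ℝ → ℝ} (hψ : Measurable ψ) {S : Finset ℝ}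
    (hS : ∀ x, ψ x ∈ S) (h0 : (0 : ℝ) ∉ S) (hr : ∀ s ∈ S, |s| ≤ r) (hβ : 0 ≤ β) (hβr : β * r ≤ 1 / 25) :
    ∃ (μ : Measure ℝ) (e L : ℝ), Step γ β (bnd γ σ r) (σ.map ψ) μ e L := by
  have hr0 : 0 ≤ r := (abs_nonneg _).trans (hr _ (hS 0))
  obtain ⟨α, ν, ξ, c, hα, hν, hξm, hξ, hlev⟩ := exists_atomic (σ := σ) γ hψ hS h0 hr
  obtain ⟨μ, C₀, e, L, hμ₀, hrand, hdet⟩ := Free.free_limit (ν := ν) hα hξ hξm hβ hβr
  have := hμ₀.prob
  set C := max C₀ |e|
  have hμ : Free.IsLaw α ν ξ μ C e :=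
    ⟨hμ₀.prob, hμ₀.supp.mono fun x hx => hx.trans (le_max_left _ _), hμ₀.moments, hμ₀.le_top, hμ₀.top⟩
  have hp : IsProbabilityMeasure (μ.map (· + c)) := Measure.isProbabilityMeasure_map (by fun_prop)
  have hl : Lev γ (σ.map ψ) (μ.map (· + c)) := hlev μ C e hμ (le_max_right _ _)
  set B := bnd γ σ r
  have hB : ∀ᵐ y ∂μ.map (· + c), |y| ≤ B := by
    have h := hl.abs_le_bnd hr0
      ((ae_map_iff hψ.aemeasurable (measurableSet_le (by fun_prop) measurable_const)).2
        (ae_of_all _ fun x => hr _ (hS x)))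
    have e1 : bnd γ (σ.map ψ) r = B := by
      simp [bnd, B, measureReal_def, Measure.map_apply hψ MeasurableSet.univ]
    rwa [e1] at h
  have hle : ∀ᵐ y ∂μ.map (· + c), y ≤ e + c :=
    (ae_map_iff (by fun_prop) measurableSet_Iic).2 (hμ.le_top.mono fun y hy => add_le_add hy le_rfl)
  have htop : ∀ η, 0 < η → 0 < (μ.map (· + c)) (Set.Ioi (e + c - η)) := fun η hη => by
    rw [Measure.map_apply (by fun_prop) measurableSet_Ioi]
    refine lt_of_lt_of_le (hμ.top η hη) (measure_mono fun y (hy : e - η < y) => ?_)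
    simp only [Set.mem_preimage, Set.mem_Ioi]
    linarith
  have heB : e + c ≤ B := top_le_of_ae htop (hB.mono fun y hy => (le_abs_self y).trans hy)
  refine ⟨μ.map (· + c), e + c, L + β / 2 * c, ⟨hp, hl, hB, hle, htop, fun law hlp hlaw => ?_⟩⟩
  have habs := tdv_of_sq (fun N : ℕ => pats ν N ⌊α * N⌋₊) (fun N P => Free.press' β (Free.jm ξ P)) L
    ((hrand 1 one_pos).mono fun N h => h.1) (by
      rw [Metric.tendsto_nhds]
      intro ε hε
      filter_upwards [hrand ε hε] with N h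
      rw [Real.dist_eq, sub_zero, abs_of_nonneg (integral_nonneg fun x => sq_nonneg _)]
      exact h.2)
  obtain ⟨R₀, l, hl₀, -⟩ := Free.realise' hα hξ hξm hμ (le_max_right _ _) hlaw habs
  set a := -(B + 1) - c
  set l' : ∀ N : ℕ, Fin N → ℝ := fun N i => max (l N i) a
  have hμa : ∀ᵐ y ∂μ, a ≤ y := by
    filter_upwards [ae_of_ae_map (by fun_prop) hB] with y hy
    simp only [a]
    linarith [(abs_le.1 hy).1]
  have hea : a ≤ e := by
    obtain ⟨y, hy1, hy2⟩ := (hμa.and hμ.le_top).exists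
    linarith
  have hemp : EmpTo μ l' := fun f hf ⟨K, hK⟩ => by
    have h := hl₀.1 (fun x => f (max x a)) (by fun_prop) ⟨K, fun x => hK _⟩
    rwa [show ∫ x, f (max x a) ∂μ = ∫ x, f x ∂μ from
      integral_congr_ae (hμa.mono fun y hy => by simp only [max_eq_left hy])] at h
  have hspec : Spec μ e (-a) l' := ⟨hemp, fun η hη => (hl₀.2.1 η hη).mono fun N h i =>
    max_le (h i) (by linarith), Eventually.of_forall fun N i => by simp [l']⟩
  have hsq := hdet law hlp hlaw (-a) l' hspec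
  have hgood : ∀ N, ∀ᵐ U ∂law N, Good U := fun N => (hlaw N).1.mono fun U hU => good_of_orth hU
  refine ⟨fun N i => l' N i + c, fun f hf ⟨K, hK⟩ => ?_, fun η hη => ?_, ?_, ?_⟩
  · have h := hemp (fun x => f (x + c)) (by fun_prop) ⟨K, fun x => hK _⟩
    rwa [integral_map (by fun_prop) hf.aestronglyMeasurable]
  · filter_upwards [hspec.2.1 η hη] with N h i
    linarith [h i]
  · filter_upwards [hspec.2.1 1 one_pos, hspec.2.2] with N h1 h2 i
    simp only [a, neg_neg] at h2
    exact abs_le.2 ⟨by linarith [h2 i], by linarith [h1 i]⟩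
  · refine tdv_of_sq law (fun N U => pr β (fun i => l' N i + c) U) _ ?_ ?_
    · filter_upwards [eventually_gt_atTop 0] with N hN
      refine Integrable.of_bound (((measurable_pr _).sub_const _).pow_const 2).aestronglyMeasurable
        ((|β| / 2 * (∑ i, |l' N i + c|) + |L + β / 2 * c|) ^ 2) ((hgood N).mono fun U hU => ?_)
      rw [Real.norm_eq_abs, abs_of_nonneg (sq_nonneg _), ← sq_abs]
      refine pow_le_pow_left₀ (abs_nonneg _) ((abs_sub _ _).trans (add_le_add ?_ le_rfl)) 2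
      exact abs_pr_le hN hU fun i =>
        Finset.single_le_sum (f := fun j => |l' N j + c|) (fun j _ => abs_nonneg _) (Finset.mem_univ i)
    · refine hsq.congr' ?_
      filter_upwards [eventually_gt_atTop 0] with N hN
      refine integral_congr_ae ((hgood N).mono fun U hU => ?_)
      simp only [pr_add_const hN hU]
      ring

/-- The step bounds the pressure when some rotation law exists. -/
theorem Step.abs_le {B e L : ℝ} {μ : Measure ℝ} (h : Step γ β B σ μ e L) (hβ : 0 ≤ β)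
    (law : ∀ N : ℕ, Measure (Fin N → Fin N → ℝ)) (hp : ∀ N, IsProbabilityMeasure (law N))
    (hlaw : ∀ N, LeftInv (law N)) : |L| ≤ β / 2 * (B + 1) + 1 := by
  obtain ⟨l, -, -, hb, hd⟩ := h.spectra law hp hlaw
  by_contra hc
  push Not at hc
  have hone : Tendsto (fun _ : ℕ => (1 : ℝ)) atTop (𝓝 0) := by
    refine hd.congr' ?_
    filter_upwards [hb, eventually_gt_atTop 0] with N hN hN0
    rw [integral_congr_ae (g := fun _ => (1 : ℝ)) ((hlaw N).1.mono fun U hU => ?_)]
    · simp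
    · have := abs_pr_le (β := β) hN0 (good_of_orth hU) hN
      rw [abs_of_nonneg hβ] at this
      refine min_eq_right ?_
      have := abs_sub_abs_le_abs_sub L (pr β (l N) U)
      rw [abs_sub_comm L] at this
      linarith
  exact one_ne_zero (tendsto_nhds_unique tendsto_const_nhds hone)

end Vale.Agent.P166.Levy
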