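import Mathlib

/-!
Stieltjes transforms of laws given by a free Lévy pair: uniqueness of the law and small-ball bounds.
-/

open MeasureTheory Filter Topology Complex ComplexConjugate

namespace Vale.Agent.P166.Levy

/-- Stieltjes transform. -/
noncomputable def st (μ : Measure ℝ) (z : ℂ) : ℂ := ∫ y : ℝ, (z - (y : ℂ))⁻¹ ∂μ

/-- `μ` has the free Lévy pair `(γ, σ)`: its reciprocal Stieltjes transform `u` solves
`z = u + γ + ∫ (u - x)⁻¹ dσ`. -/
def Lev (γ : ℝ) (σ μ : Measure ℝ) : Prop :=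
  ∀ z : ℂ, 0 < z.im → z = (st μ z)⁻¹ + γ + ∫ x : ℝ, ((st μ z)⁻¹ - (x : ℂ))⁻¹ ∂σ

/-- Second order quantity of the subordination. -/
noncomputable def isq (σ : Measure ℝ) (u : ℂ) : ℝ := ∫ x : ℝ, (normSq (u - (x : ℂ)))⁻¹ ∂σ

variable {μ σ : Measure ℝ} {γ : ℝ} {u v z : ℂ}

theorem normSq_sub_pos (_hu : u.im ≠ 0) (x : ℝ) : u.im ^ 2 ≤ normSq (u - (x : ℂ)) := by
  rw [normSq_apply]; simp only [sub_re, sub_im, ofReal_re, ofReal_im, sub_zero]
  nlinarith [mul_self_nonneg (u.re - x)]

theorem norm_inv_sq (w : ℂ) : ‖w⁻¹‖ ^ 2 = (normSq w)⁻¹ := by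
  rw [norm_inv, inv_pow, Complex.sq_norm]

theorem abs_im_le (x : ℝ) : |u.im| ≤ ‖u - (x : ℂ)‖ := by
  simpa using abs_im_le_norm (u - (x : ℂ))

theorem norm_inv_le (hu : u.im ≠ 0) (x : ℝ) : ‖(u - (x : ℂ))⁻¹‖ ≤ |u.im|⁻¹ := by
  rw [norm_inv]; exact inv_anti₀ (abs_pos.2 hu) (abs_im_le x)

theorem integrable_kernel [IsFiniteMeasure σ] (hu : u.im ≠ 0) :
    Integrable (fun x : ℝ => (u - (x : ℂ))⁻¹) σ :=
  Integrable.of_bound (Measurable.aestronglyMeasurable (by fun_prop)) _
    (ae_of_all _ fun x => norm_inv_le hu x)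

theorem integrable_isq [IsFiniteMeasure σ] (hu : u.im ≠ 0) :
    Integrable (fun x : ℝ => (normSq (u - (x : ℂ)))⁻¹) σ :=
  Integrable.of_bound (Measurable.aestronglyMeasurable (by fun_prop)) (u.im ^ 2)⁻¹
    (ae_of_all _ fun x => by
      rw [Real.norm_eq_abs, abs_of_nonneg (inv_nonneg.2 (normSq_nonneg _))]
      exact inv_anti₀ (by positivity) (normSq_sub_pos hu x))

theorem im_kernel [IsFiniteMeasure σ] (hu : u.im ≠ 0) :
    (∫ x : ℝ, (u - (x : ℂ))⁻¹ ∂σ).im = -(u.im * isq σ u) := by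
  have h : ∫ x : ℝ, ((u - (x : ℂ))⁻¹).im ∂σ = (∫ x : ℝ, (u - (x : ℂ))⁻¹ ∂σ).im :=
    integral_im (integrable_kernel hu)
  rw [← h, isq, ← integral_const_mul, ← integral_neg]
  refine integral_congr_ae (ae_of_all _ fun x => ?_)
  simp [inv_im, div_eq_mul_inv]

theorem isq_pos [IsProbabilityMeasure μ] (hu : u.im ≠ 0) : 0 < isq μ u := by
  refine (integral_pos_iff_support_of_nonneg (fun x => inv_nonneg.2 (normSq_nonneg _))
    (integrable_isq hu)).2 ?_
  have h : Function.support (fun x : ℝ => (normSq (u - (x : ℂ)))⁻¹) = Set.univ := by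
    refine Set.eq_univ_of_forall fun x => ?_
    have := normSq_sub_pos hu x
    have : 0 < u.im ^ 2 := by positivity
    simp only [Function.mem_support, ne_eq, inv_eq_zero]
    linarith
  rw [h, measure_univ]; exact one_pos

theorem st_im_neg [IsProbabilityMeasure μ] (hz : 0 < z.im) : (st μ z).im < 0 := by
  rw [st, im_kernel hz.ne']
  exact neg_neg_of_pos (mul_pos hz (isq_pos hz.ne'))

theorem st_inv_im [IsProbabilityMeasure μ] (hz : 0 < z.im) : 0 < ((st μ z)⁻¹).im := by
  have h := st_im_neg (μ := μ) hz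
  rw [inv_im]
  exact div_pos (neg_pos.2 h) (normSq_pos.2 fun h0 => by rw [h0] at h; simp at h)

/-- Imaginary part of the equation. -/
theorem Lev.im_eq [IsFiniteMeasure σ] [IsProbabilityMeasure μ] (h : Lev γ σ μ) (hz : 0 < z.im) :
    z.im = ((st μ z)⁻¹).im * (1 - isq σ (st μ z)⁻¹) ∧ isq σ (st μ z)⁻¹ < 1 := by
  have hu := st_inv_im (μ := μ) hz
  have e := congrArg Complex.im (h z hz)
  rw [add_im, add_im, ofReal_im, im_kernel hu.ne', add_zero] at e
  have e' : z.im = ((st μ z)⁻¹).im * (1 - isq σ (st μ z)⁻¹) := by linarith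
  refine ⟨e', ?_⟩
  by_contra hc
  push Not at hc
  nlinarith [mul_nonpos_of_nonneg_of_nonpos hu.le (sub_nonpos.2 hc)]

/-- The equation has at most one solution with `isq < 1`. -/
theorem solution_unique [IsFiniteMeasure σ] (hu : u.im ≠ 0) (hv : v.im ≠ 0)
    (hu1 : isq σ u < 1) (hv1 : isq σ v < 1)
    (h : u + ∫ x : ℝ, (u - (x : ℂ))⁻¹ ∂σ = v + ∫ x : ℝ, (v - (x : ℂ))⁻¹ ∂σ) : u = v := by
  set K := ∫ x : ℝ, (u - (x : ℂ))⁻¹ * (v - (x : ℂ))⁻¹ ∂σ
  have hd : ∫ x : ℝ, (u - (x : ℂ))⁻¹ ∂σ - ∫ x : ℝ, (v - (x : ℂ))⁻¹ ∂σ = (v - u) * K := by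
    rw [← integral_sub (integrable_kernel hu) (integrable_kernel hv), ← integral_const_mul]
    refine integral_congr_ae (ae_of_all _ fun x => ?_)
    have h1 : u - (x : ℂ) ≠ 0 := fun h0 => hu (by simpa using congrArg Complex.im h0)
    have h2 : v - (x : ℂ) ≠ 0 := fun h0 => hv (by simpa using congrArg Complex.im h0)
    field_simp
    ring
  have hK : ‖K‖ < 1 := by
    refine lt_of_le_of_lt (norm_integral_le_integral_norm _) ?_
    refine lt_of_le_of_lt (integral_mono_of_nonneg (ae_of_all _ fun x => norm_nonneg _)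
      (((integrable_isq (σ := σ) hu).add (integrable_isq hv)).div_const 2)
      (ae_of_all _ fun x => ?_)) ?_
    · simp only [Pi.add_apply, norm_mul]
      rw [← norm_inv_sq, ← norm_inv_sq]
      nlinarith [sq_nonneg (‖(u - (x : ℂ))⁻¹‖ - ‖(v - (x : ℂ))⁻¹‖)]
    · rw [integral_div, integral_add' (integrable_isq hu) (integrable_isq hv)]
      simp only [isq] at hu1 hv1
      linarith
  have h0 : (u - v) * (1 - K) = 0 := by linear_combination h - hd
  have hne : (1 : ℂ) - K ≠ 0 := fun h1 => by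
    rw [← sub_eq_zero.1 h1, norm_one] at hK; exact lt_irrefl _ hK
  exact sub_eq_zero.1 ((mul_eq_zero.1 h0).resolve_right hne)

theorem integrable_pow_kernel [IsFiniteMeasure μ] {C : ℝ} (hC : ∀ᵐ y ∂μ, |y| ≤ C) (k : ℕ)
    (hz : z.im ≠ 0) : Integrable (fun y : ℝ => (y : ℂ) ^ k * (z - (y : ℂ))⁻¹) μ :=
  Integrable.of_bound (Measurable.aestronglyMeasurable (by fun_prop)) (C ^ k * |z.im|⁻¹)
    (hC.mono fun y hy => by
      rw [norm_mul, norm_pow, Complex.norm_real, Real.norm_eq_abs]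
      exact mul_le_mul (pow_le_pow_left₀ (abs_nonneg y) hy k) (norm_inv_le hz y) (norm_nonneg _)
        (pow_nonneg ((abs_nonneg y).trans hy) k))

/-- A compactly supported law is determined by its Stieltjes transform. -/
theorem eq_of_st {μ' : Measure ℝ} [IsProbabilityMeasure μ] [IsProbabilityMeasure μ'] {C : ℝ}
    (hC : ∀ᵐ y ∂μ, |y| ≤ C) (hC' : ∀ᵐ y ∂μ', |y| ≤ C)
    (h : ∀ z : ℂ, 0 < z.im → st μ z = st μ' z) : μ = μ' := by
  let T : Measure ℝ → ℕ → ℂ → ℂ := fun m k z => ∫ y : ℝ, (y : ℂ) ^ k * (z - (y : ℂ))⁻¹ ∂m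
  have hstep : ∀ (m : Measure ℝ) [IsProbabilityMeasure m], (∀ᵐ y ∂m, |y| ≤ C) → ∀ k (z : ℂ), 0 < z.im →
      z * T m k z = ((∫ y, y ^ k ∂m : ℝ) : ℂ) + T m (k + 1) z := fun m _ hm k z hz => by
    have hp : Integrable (fun y : ℝ => ((y ^ k : ℝ) : ℂ)) m :=
      Integrable.of_bound (Measurable.aestronglyMeasurable (by fun_prop)) (C ^ k) (hm.mono fun y hy => by
        rw [Complex.norm_real, Real.norm_eq_abs, abs_pow]; exact pow_le_pow_left₀ (abs_nonneg y) hy k)
    simp only [T]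
    rw [← integral_complex_ofReal, ← integral_add hp (integrable_pow_kernel hm _ hz.ne'), ← integral_const_mul]
    refine integral_congr_ae (ae_of_all _ fun y => ?_)
    have h0 : z - (y : ℂ) ≠ 0 := fun h0 => hz.ne' (by simpa using congrArg Complex.im h0)
    push_cast
    field_simp
    ring
  have hsmall : ∀ (m : Measure ℝ) [IsProbabilityMeasure m], (∀ᵐ y ∂m, |y| ≤ C) → ∀ k,
      Tendsto (fun n : ℕ => T m k (((n : ℝ) + 1 : ℝ) * I)) atTop (𝓝 0) := fun m _ hm k => by
    refine squeeze_zero_norm (fun n => ?_)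
      (by simpa using (tendsto_one_div_add_atTop_nhds_zero_nat (𝕜 := ℝ)).const_mul (C ^ k))
    refine (norm_integral_le_of_norm_le_const (C := C ^ k * (1 / ((n : ℝ) + 1)))
      (hm.mono fun y hy => ?_)).trans_eq (by simp)
    have him : ((((n : ℝ) + 1 : ℝ) : ℂ) * I).im = (n : ℝ) + 1 := by simp
    rw [norm_mul, norm_pow, Complex.norm_real, Real.norm_eq_abs, one_div]
    refine mul_le_mul (pow_le_pow_left₀ (abs_nonneg y) hy k) ?_ (norm_nonneg _)
      (pow_nonneg ((abs_nonneg y).trans hy) k)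
    refine (norm_inv_le (by rw [him]; positivity) y).trans_eq ?_
    rw [him, abs_of_pos (by positivity)]
  have key : ∀ k, (∀ z : ℂ, 0 < z.im → T μ k z = T μ' k z) ∧ ∫ y, y ^ k ∂μ = ∫ y, y ^ k ∂μ' := by
    intro k
    induction k with
    | zero =>
      refine ⟨fun z hz => by simpa [T, st] using h z hz, by simp⟩
    | succ k ih =>
      have hT : ∀ z : ℂ, 0 < z.im → T μ (k + 1) z = T μ' (k + 1) z := fun z hz => by
        have e1 := hstep μ hC k z hz
        rw [ih.1 z hz, hstep μ' hC' k z hz, ih.2] at e1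
        exact (add_left_cancel e1).symm
      refine ⟨hT, ?_⟩
      have hlim : ∀ (m : Measure ℝ) [IsProbabilityMeasure m], (∀ᵐ y ∂m, |y| ≤ C) →
          Tendsto (fun n : ℕ => (((n : ℝ) + 1 : ℝ) : ℂ) * I * T m (k + 1) (((n : ℝ) + 1 : ℝ) * I)) atTop
            (𝓝 ((∫ y, y ^ (k + 1) ∂m : ℝ) : ℂ)) := fun m _ hm => by
        have := (tendsto_const_nhds (x := ((∫ y, y ^ (k + 1) ∂m : ℝ) : ℂ))).add (hsmall m hm (k + 2))
        rw [add_zero] at this
        refine this.congr fun n => (hstep m hm (k + 1) _ ?_).symm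
        simp; positivity
      have := tendsto_nhds_unique ((hlim μ hC).congr fun n => by rw [hT _ (by simp; positivity)]) (hlim μ' hC')
      exact_mod_cast this
  refine ext_of_forall_integral_eq_of_IsFiniteMeasure fun f => ?_
  refine eq_of_forall_dist_le fun ε hε => ?_
  obtain ⟨p, hp⟩ := exists_polynomial_near_of_continuousOn (-C) C f f.continuous.continuousOn (ε / 2) (by positivity)
  have hclose : ∀ (m : Measure ℝ) [IsProbabilityMeasure m], (∀ᵐ y ∂m, |y| ≤ C) →
      |∫ y, f y ∂m - ∑ i ∈ Finset.range (p.natDegree + 1), p.coeff i * ∫ y, y ^ i ∂m| ≤ ε / 2 := fun m _ hm => by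
    have hi : ∀ i : ℕ, Integrable (fun y : ℝ => y ^ i) m := fun i =>
      Integrable.of_bound (continuous_pow i).aestronglyMeasurable (C ^ i) (hm.mono fun y hy => by
        rw [norm_pow, Real.norm_eq_abs]; exact pow_le_pow_left₀ (abs_nonneg y) hy i)
    simp only [← integral_const_mul]
    rw [← integral_finsetSum _ (fun i _ => (hi i).const_mul _),
      ← integral_sub (f.integrable m) (integrable_finsetSum _ fun i _ => (hi i).const_mul _), ← Real.norm_eq_abs]
    refine (norm_integral_le_of_norm_le_const (C := ε / 2) (hm.mono fun y hy => ?_)).trans_eq (by simp)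
    rw [← Polynomial.eval_eq_sum_range, Real.norm_eq_abs, abs_sub_comm]
    exact (hp y (abs_le.1 hy)).le
  have a := hclose μ hC
  have b := hclose μ' hC'
  simp only [(key _).2] at a
  rw [Real.dist_eq]
  rw [abs_le] at a b ⊢
  constructor <;> linarith [a.1, a.2, b.1, b.2]

/-- Uniqueness of the law of a Lévy pair. -/
theorem Lev.unique {μ' : Measure ℝ} [IsFiniteMeasure σ] [IsProbabilityMeasure μ] [IsProbabilityMeasure μ']
    {C : ℝ} (hC : ∀ᵐ y ∂μ, |y| ≤ C) (hC' : ∀ᵐ y ∂μ', |y| ≤ C) (h : Lev γ σ μ) (h' : Lev γ σ μ') : μ = μ' :=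
  eq_of_st hC hC' fun z hz => inv_inj.1 <| solution_unique (σ := σ) (st_inv_im hz).ne' (st_inv_im hz).ne'
    (h.im_eq hz).2 (h'.im_eq hz).2 (by linear_combination (h' z hz) - (h z hz))

/-- Reflection. -/
theorem Lev.neg (h : Lev γ σ μ) : Lev (-γ) (σ.map fun x => -x) (μ.map fun x => -x) := fun z hz => by
  have hs : ∀ w : ℂ, st (μ.map fun x => -x) w = -(conj (st μ (-(conj w)))) := fun w => by
    rw [st, integral_map (by fun_prop) (Measurable.aestronglyMeasurable (by fun_prop)), st, ← integral_conj,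
      ← integral_neg]
    refine integral_congr_ae (ae_of_all _ fun y => ?_)
    simp only [map_inv₀, map_sub, map_neg, Complex.conj_conj, Complex.conj_ofReal, ofReal_neg, ← inv_neg]
    congr 1; ring
  have e := congrArg conj (h (-(conj z)) (by simpa using hz))
  rw [map_add, map_add, Complex.conj_ofReal, map_inv₀, ← integral_conj, map_neg, Complex.conj_conj] at e
  rw [hs, integral_map (by fun_prop) (Measurable.aestronglyMeasurable (by fun_prop)), inv_neg]
  have e2 : ∫ x : ℝ, (-(conj (st μ (-(conj z))))⁻¹ - ((-x : ℝ) : ℂ))⁻¹ ∂σ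
      = -∫ x : ℝ, conj ((st μ (-(conj z)))⁻¹ - (x : ℂ))⁻¹ ∂σ := by
    rw [← integral_neg]
    refine integral_congr_ae (ae_of_all _ fun x => ?_)
    simp only [map_inv₀, map_sub, Complex.conj_ofReal, ofReal_neg, ← inv_neg]
    congr 1; ring
  rw [e2]
  push_cast
  linear_combination -e

/-- A bound on `isq` along a sequence tending to a real point bounds the mass near it. -/
theorem small_ball [IsFiniteMeasure σ] {w : ℕ → ℂ} {c M : ℝ} (hw : Tendsto w atTop (𝓝 (c : ℂ)))
    (him : ∀ n, (w n).im ≠ 0) (hM : ∀ᶠ n in atTop, isq σ (w n) ≤ M) {δ : ℝ} (_hδ : 0 ≤ δ) :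
    σ.real (Set.Icc (c - δ) (c + δ)) ≤ M * δ ^ 2 := by
  have hb : ∀ᶠ n in atTop, σ.real (Set.Icc (c - δ) (c + δ))
      ≤ M * ((|(w n).re - c| + δ) ^ 2 + (w n).im ^ 2) := by
    filter_upwards [hM] with n hn
    set D := (|(w n).re - c| + δ) ^ 2 + (w n).im ^ 2
    have hD : 0 < D := add_pos_of_nonneg_of_pos (sq_nonneg _) (lt_of_le_of_ne (sq_nonneg _) (pow_ne_zero 2 (him n)).symm)
    have h1 : (Set.Icc (c - δ) (c + δ)).indicator (fun _ => D⁻¹) ≤ fun x : ℝ => (normSq (w n - (x : ℂ)))⁻¹ :=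
      fun x => by
        refine Set.indicator_le' (g := fun x : ℝ => (normSq (w n - (x : ℂ)))⁻¹) (fun x hx => ?_)
          (fun x _ => inv_nonneg.2 (normSq_nonneg _)) x
        refine inv_anti₀ (lt_of_lt_of_le (by have := him n; positivity) (normSq_sub_pos (him n) x)) ?_
        have hd : |(w n).re - x| ≤ |(w n).re - c| + δ :=
          (abs_sub_le _ c _).trans (add_le_add le_rfl (abs_le.2 ⟨by linarith [hx.2], by linarith [hx.1]⟩))
        have := pow_le_pow_left₀ (abs_nonneg _) hd 2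
        rw [sq_abs] at this
        simp only [normSq_apply, sub_re, sub_im, ofReal_re, ofReal_im, sub_zero, D]
        linarith
    have h2 := (integral_mono ((integrable_const D⁻¹).indicator measurableSet_Icc)
      (integrable_isq (him n)) h1).trans hn
    rw [integral_indicator_const _ measurableSet_Icc, smul_eq_mul] at h2
    rw [mul_inv_le_iff₀ hD] at h2
    exact h2
  have hre : Tendsto (fun n => (w n).re) atTop (𝓝 c) := by
    simpa [Function.comp_def] using (Complex.continuous_re.tendsto _).comp hw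
  have hi : Tendsto (fun n => (w n).im) atTop (𝓝 0) := by
    simpa [Function.comp_def] using (Complex.continuous_im.tendsto _).comp hw
  have hl : Tendsto (fun n => M * ((|(w n).re - c| + δ) ^ 2 + (w n).im ^ 2)) atTop (𝓝 (M * δ ^ 2)) := by
    simpa using ((((hre.sub_const c).abs.add_const δ).pow 2).add (hi.pow 2)).const_mul M
  exact ge_of_tendsto hl hb

/-- Quadratic small-ball bounds along an interval force it to be null. -/
theorem null_Icc [IsFiniteMeasure σ] {a b M : ℝ}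
    (h : ∀ c, a ≤ c → ∀ δ, 0 ≤ δ → σ.real (Set.Icc (c - δ) (c + δ)) ≤ M * δ ^ 2) :
    σ (Set.Icc a b) = 0 := by
  rcases lt_or_ge b a with hab | hab
  · rw [Set.Icc_eq_empty (not_le.2 hab), measure_empty]
  rw [← measureReal_eq_zero_iff (measure_ne_top _ _)]
  refine le_antisymm ?_ measureReal_nonneg
  have hb : ∀ n : ℕ, σ.real (Set.Icc a b) ≤ ((n : ℝ) + 2) * (|M| * ((b - a) * (1 / ((n : ℝ) + 1))) ^ 2) := fun n => by
    set δ := (b - a) * (1 / ((n : ℝ) + 1))
    have hδ : 0 ≤ δ := mul_nonneg (by linarith) (by positivity)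
    have hsub : Set.Icc a b ⊆ ⋃ i ∈ Finset.range (n + 2), Set.Icc (a + i * δ - δ) (a + i * δ + δ) := by
      intro x hx
      rcases hδ.eq_or_lt with h0 | h0
      · refine Set.mem_biUnion (x := 0) (by simp) ?_
        have : b - a = 0 := (mul_eq_zero.1 h0.symm).resolve_right (by positivity)
        refine ⟨?_, ?_⟩ <;> rw [← h0] <;> simp <;> linarith [hx.1, hx.2]
      · have hq : 0 ≤ (x - a) / δ := div_nonneg (by linarith [hx.1]) h0.le
        refine Set.mem_biUnion (x := ⌊(x - a) / δ⌋₊) ?_ ⟨?_, ?_⟩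
        · refine Finset.mem_range.2 ?_
          refine Nat.lt_succ_of_le (Nat.floor_le_of_le ?_)
          rw [div_le_iff₀ h0]
          push_cast
          simp only [δ]
          field_simp
          nlinarith [hx.2]
        · have := Nat.floor_le hq
          rw [le_div_iff₀ h0] at this
          linarith
        · have := Nat.lt_floor_add_one ((x - a) / δ)
          rw [div_lt_iff₀ h0] at this
          linarith
    refine (measureReal_mono hsub (measure_ne_top _ _)).trans ((measureReal_biUnion_finset_le _ _).trans ?_)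
    refine (Finset.sum_le_sum fun i _ => h _ (le_add_of_nonneg_right (by positivity)) δ hδ).trans ?_
    rw [Finset.sum_const, Finset.card_range, nsmul_eq_mul]
    push_cast
    exact mul_le_mul_of_nonneg_left (mul_le_mul_of_nonneg_right (le_abs_self M) (sq_nonneg _)) (by positivity)
  refine ge_of_tendsto' (x := atTop) ?_ hb
  have h1 := tendsto_one_div_add_atTop_nhds_zero_nat (𝕜 := ℝ)
  have h2 : Tendsto (fun n : ℕ => (1 + 1 / ((n : ℝ) + 1)) * (|M| * (b - a) ^ 2 * (1 / ((n : ℝ) + 1)))) atTop (𝓝 0) := by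
    simpa using (h1.const_add 1).mul (h1.const_mul (|M| * (b - a) ^ 2))
  refine h2.congr fun n => ?_
  field_simp
  ring

/-- Null right half-line. -/
theorem null_Ioi [IsFiniteMeasure σ] {a M : ℝ}
    (h : ∀ c, a ≤ c → ∀ δ, 0 ≤ δ → σ.real (Set.Icc (c - δ) (c + δ)) ≤ M * δ ^ 2) :
    σ (Set.Ioi a) = 0 :=
  measure_mono_null (t := ⋃ n : ℕ, Set.Icc a (a + n)) (fun x (hx : a < x) => Set.mem_iUnion.2 ⟨⌈x - a⌉₊, hx.le,
      by linarith [Nat.le_ceil (x - a)]⟩)
    (measure_iUnion_null fun n : ℕ => null_Icc (b := a + n) h)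

end Vale.Agent.P166.Levy
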