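import Vale.Agent.P166.Levy.Edge
import Vale.Agent.P166.Free.Stieltjes

/-!
A Lévy pair with finitely many nonzero atoms is a shifted free compound Poisson law.
-/

open MeasureTheory Filter Topology Complex Finset

namespace Vale.Agent.P166.Levy

variable {σ μ : Measure ℝ} {S : Finset ℝ}

theorem integral_finite [IsFiniteMeasure σ] {ψ : ℝ → ℝ} (hψ : Measurable ψ) (hS : ∀ x, ψ x ∈ S)
    (F : ℝ → ℂ) : ∫ x, F (ψ x) ∂σ = ∑ s ∈ S, (σ.real (ψ ⁻¹' {s}) : ℂ) * F s := by
  classical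
  have hm : ∀ s, MeasurableSet (ψ ⁻¹' {s}) := fun s => hψ (measurableSet_singleton s)
  have e : ∀ x, F (ψ x) = ∑ s ∈ S, (ψ ⁻¹' {s}).indicator (fun _ => F s) x := fun x => by
    rw [Finset.sum_eq_single (ψ x) (fun s _ hs => Set.indicator_of_notMem (by simpa using fun h => hs h.symm) _)
      fun h => absurd (hS x) h, Set.indicator_of_mem (by simp)]
  simp only [e]
  rw [integral_finsetSum _ fun s _ => (integrable_const (F s)).indicator (hm s)]
  refine Finset.sum_congr rfl fun s _ => ?_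
  rw [integral_indicator_const _ (hm s), Complex.real_smul]

theorem analytic_st [IsProbabilityMeasure μ] {e : ℝ} (he : ∀ᵐ y ∂μ, y ≤ e) :
    AnalyticOnNhd ℂ (st μ) ({z : ℂ | e < z.re} ∪ {z : ℂ | 0 < z.im}) := by
  refine DifferentiableOn.analyticOnNhd (fun z hz => ?_)
    ((isOpen_lt continuous_const Complex.continuous_re).union (isOpen_lt continuous_const Complex.continuous_im))
  set ρ := max (z.re - e) z.im / 2
  have hρ : 0 < ρ := half_pos (lt_max_iff.2 (hz.imp (fun h => sub_pos.2 h) id))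
  have hne : ∀ y : ℝ, y ≤ e → ∀ u ∈ Metric.ball z ρ, ρ ≤ ‖u - (y : ℂ)‖ := fun y hy u hu => by
    rw [Metric.mem_ball, dist_eq_norm] at hu
    have h1 : max (z.re - e) z.im ≤ ‖z - (y : ℂ)‖ := max_le
      (le_trans (by simp only [sub_re, ofReal_re]; linarith) (re_le_norm (z - (y : ℂ))))
      (le_trans (le_of_eq (by simp)) ((le_abs_self _).trans (abs_im_le_norm (z - (y : ℂ)))))
    have h2 := norm_sub_le_norm_sub_add_norm_sub z u (y : ℂ)
    rw [norm_sub_rev z u] at h2
    simp only [ρ] at hu ⊢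
    linarith
  have hb : ∀ u ∈ Metric.ball z ρ, ∀ y : ℝ, y ≤ e → ‖(u - (y : ℂ))⁻¹‖ ≤ ρ⁻¹ := fun u hu y hy => by
    rw [norm_inv]; exact inv_anti₀ hρ (hne y hy u hu)
  refine (hasDerivAt_integral_of_dominated_loc_of_deriv_le (μ := μ)
    (F := fun (u : ℂ) (y : ℝ) => (u - (y : ℂ))⁻¹) (F' := fun (u : ℂ) (y : ℝ) => -1 / (u - (y : ℂ)) ^ 2)
    (bound := fun _ => ρ⁻¹ ^ 2) (Metric.ball_mem_nhds z hρ)
    (Eventually.of_forall fun u => Measurable.aestronglyMeasurable (by fun_prop))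
    (Integrable.of_bound (Measurable.aestronglyMeasurable (by fun_prop)) ρ⁻¹
      (he.mono fun y hy => hb z (Metric.mem_ball_self hρ) y hy))
    (Measurable.aestronglyMeasurable (by fun_prop))
    (he.mono fun y hy u hu => ?_) (integrable_const _)
    (he.mono fun y hy u hu => ?_)).2.differentiableAt.differentiableWithinAt
  · rw [norm_div, norm_neg, norm_one, norm_pow, inv_pow, ← one_div]
    exact one_div_le_one_div_of_le (by positivity) (pow_le_pow_left₀ hρ.le (hne y hy u hu) 2)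
  · have h0 : u - (y : ℂ) ≠ 0 := norm_pos_iff.1 (lt_of_lt_of_le hρ (hne y hy u hu))
    exact (((hasDerivAt_id u).sub_const (y : ℂ)).inv h0)

/-- The jump law with prescribed weights. -/
theorem exists_jumps {s₀ : ℝ} (hs₀ : s₀ ∈ S) (q : ℝ → ℝ) (hq : ∀ s ∈ S, 0 ≤ q s) :
    ∃ (α : ℝ) (ν : Measure ℝ) (ξ : ℝ → ℝ), 0 ≤ α ∧ IsProbabilityMeasure ν ∧ Measurable ξ ∧
      (∀ x, ξ x ∈ S) ∧ ∀ s ∈ S, Free.jw α ν ξ s = q s := by
  classical
  set α := ∑ s ∈ S, q s
  have hα : 0 ≤ α := sum_nonneg hq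
  set ξ : ℝ → ℝ := fun x => if x ∈ S then x else s₀
  have hξm : Measurable ξ := Measurable.ite S.measurableSet measurable_id measurable_const
  have hξS : ∀ x, ξ x ∈ S := fun x => by simp only [ξ]; split_ifs with h <;> assumption
  rcases hα.eq_or_lt with h0 | h0
  · exact ⟨α, Measure.dirac s₀, ξ, hα, inferInstance, hξm, hξS, fun s hs => by
      rw [Free.jw, ← h0, zero_mul, (sum_eq_zero_iff_of_nonneg hq).1 h0.symm s hs]⟩
  set ν : Measure ℝ := ∑ s ∈ S, ENNReal.ofReal (q s / α) • Measure.dirac s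
  have hν : ∀ A : Set ℝ, MeasurableSet A → ν.real A = ∑ s ∈ S, A.indicator (fun s => q s / α) s := fun A hA => by
    simp only [ν, measureReal_def, Measure.finsetSum_apply, Measure.smul_apply, smul_eq_mul]
    rw [ENNReal.toReal_sum fun s _ => ENNReal.mul_ne_top ENNReal.ofReal_ne_top (measure_ne_top _ _)]
    refine Finset.sum_congr rfl fun s hs => ?_
    rw [ENNReal.toReal_mul, ENNReal.toReal_ofReal (div_nonneg (hq s hs) hα), Measure.dirac_apply' _ hA]
    by_cases h : s ∈ A <;> simp [h]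
  refine ⟨α, ν, ξ, hα, ⟨?_⟩, hξm, hξS, fun s hs => ?_⟩
  · simp only [ν, Measure.finsetSum_apply, Measure.smul_apply, smul_eq_mul, measure_univ, mul_one]
    rw [← ENNReal.ofReal_sum_of_nonneg fun s hs => div_nonneg (hq s hs) hα, ← Finset.sum_div, div_self h0.ne',
      ENNReal.ofReal_one]
  · rw [Free.jw, hν _ (hξm (measurableSet_singleton s)), Finset.sum_eq_single s
      (fun t ht hts => Set.indicator_of_notMem (by simp [ξ, ht, hts]) _) fun h => absurd hs h,
      Set.indicator_of_mem (by simp [ξ, hs])]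
    field_simp

/-- A finitely atomic Lévy pair without atom at zero. -/
theorem exists_atomic [IsFiniteMeasure σ] (γ : ℝ) {ψ : ℝ → ℝ} (hψ : Measurable ψ) (hS : ∀ x, ψ x ∈ S)
    (h0 : (0 : ℝ) ∉ S) {r : ℝ} (hr : ∀ s ∈ S, |s| ≤ r) :
    ∃ (α : ℝ) (ν : Measure ℝ) (ξ : ℝ → ℝ) (c : ℝ),
      0 ≤ α ∧ IsProbabilityMeasure ν ∧ Measurable ξ ∧ (∀ x, |ξ x| ≤ r) ∧
        ∀ (μ : Measure ℝ) (C e : ℝ), Free.IsLaw α ν ξ μ C e → |e| ≤ C →
          Lev γ (σ.map ψ) (μ.map (· + c)) := by
  classical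
  set q : ℝ → ℝ := fun s => σ.real (ψ ⁻¹' {s}) / s ^ 2
  obtain ⟨α, ν, ξ, hα, hν, hξm, hξS, hjw⟩ :=
    exists_jumps (hS 0) q fun s _ => div_nonneg measureReal_nonneg (sq_nonneg s)
  have hξ : ∀ x, |ξ x| ≤ r := fun x => hr _ (hξS x)
  set c := γ - ∑ s ∈ S, q s * s
  refine ⟨α, ν, ξ, c, hα, hν, hξm, hξ, fun μ C e hμ hC z hz => ?_⟩
  have := hμ.prob
  set U := {z : ℂ | e < z.re} ∪ {z : ℂ | 0 < z.im}
  have hG : AnalyticOnNhd ℂ (st μ) U := analytic_st hμ.le_top
  set F : ℂ → ℂ := fun w => Free.feq S (Free.jw α ν ξ) Complex.ofRealHom w (st μ w)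
  have hF : AnalyticOnNhd ℂ F U := by
    have h1 : ∀ s : ℝ, AnalyticOnNhd ℂ (fun w => 1 - Complex.ofRealHom s * st μ w) U := fun s =>
      analyticOnNhd_const.sub (analyticOnNhd_const.mul hG)
    exact ((Finset.analyticOnNhd_fun_prod S fun s _ => h1 s).mul ((analyticOnNhd_id.mul hG).sub analyticOnNhd_const)).sub
      (Finset.analyticOnNhd_fun_sum S fun s _ => (analyticOnNhd_const.mul hG).mul
        (Finset.analyticOnNhd_fun_prod _ fun u _ => h1 u))
  set z₁ := C + r + 2 + |e|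
  have hC0 : 0 ≤ C := (abs_nonneg e).trans hC
  have hr0 : 0 ≤ r := (abs_nonneg _).trans (hξ 0)
  have hfreq : ∃ᶠ w in 𝓝[≠] ((z₁ : ℝ) : ℂ), F w = 0 := by
    have ht : Tendsto (fun n : ℕ => ((z₁ + 1 / ((n : ℝ) + 1) : ℝ) : ℂ)) atTop (𝓝[≠] ((z₁ : ℝ) : ℂ)) := by
      refine tendsto_nhdsWithin_iff.2 ⟨?_, Eventually.of_forall fun n => ?_⟩
      · refine (Complex.continuous_ofReal.tendsto _).comp ?_
        simpa using (tendsto_const_nhds (x := z₁)).add (tendsto_one_div_add_atTop_nhds_zero_nat (𝕜 := ℝ))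
      · simp only [Set.mem_compl_iff, Set.mem_singleton_iff, Complex.ofReal_inj]
        have : (0 : ℝ) < 1 / ((n : ℝ) + 1) := by positivity
        linarith
    refine ht.frequently (Eventually.of_forall fun n => ?_).frequently
    have : (0 : ℝ) < 1 / ((n : ℝ) + 1) := by positivity
    simp only [F, st, Free.stieltjes_cast, Free.feq_cast]
    rw [Free.feq_large hμ hC0 hξ hξm hξS hr (by simp only [z₁]; linarith [abs_nonneg e])
      (by simp only [z₁]; linarith [le_abs_self e])]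
    simp
  have hpre : IsPreconnected U := IsPreconnected.union (⟨e + 1, 1⟩ : ℂ) (show e < e + 1 by linarith)
    (show (0 : ℝ) < 1 from one_pos) (convex_halfSpace_re_gt e).isPreconnected (convex_halfSpace_im_gt 0).isPreconnected
  have hzero := hF.eqOn_zero_of_preconnected_of_frequently_eq_zero hpre
    (Or.inl (show e < ((z₁ : ℝ) : ℂ).re by simp only [ofReal_re, z₁]; linarith [le_abs_self e])) hfreq
  have hsh : st (μ.map (· + c)) z = st μ (z - c) := by
    rw [st, integral_map (by fun_prop) (Measurable.aestronglyMeasurable (by fun_prop)), st]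
    exact integral_congr_ae (ae_of_all _ fun y => by push_cast; congr 1; ring)
  rw [hsh, integral_map hψ.aemeasurable (Measurable.aestronglyMeasurable (by fun_prop)),
    integral_finite hψ hS fun s : ℝ => ((st μ (z - c))⁻¹ - (s : ℂ))⁻¹]
  have hz' : 0 < (z - (c : ℂ)).im := by simpa using hz
  have him := st_im_neg (μ := μ) hz'
  set G := st μ (z - c)
  have hG0 : G ≠ 0 := fun h => by simp [h] at him
  have hne : ∀ s ∈ S, 1 - (s : ℂ) * G ≠ 0 := fun s hs h => by
    have := congrArg Complex.im h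
    simp only [sub_im, one_im, zero_sub, mul_im, ofReal_re, ofReal_im, zero_mul, add_zero, zero_im, neg_eq_zero,
      mul_eq_zero] at this
    rcases this with h1 | h1
    · exact h0 (h1 ▸ hs)
    · exact him.ne h1
  have hsne : ∀ s ∈ S, (s : ℂ) ≠ 0 := fun s hs h => h0 (by rwa [ofReal_eq_zero.1 h] at hs)
  have hf : F (z - c) = 0 := hzero (Or.inr hz')
  simp only [F, Free.feq, Complex.ofRealHom_eq_coe, show st μ (z - c) = G from rfl] at hf
  have e1 : ∑ s ∈ S, (Free.jw α ν ξ s : ℂ) * s * G * ∏ u ∈ S.erase s, (1 - (u : ℂ) * G)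
      = (∏ s ∈ S, (1 - (s : ℂ) * G)) * (G * ((∑ s ∈ S, q s * s : ℝ) +
          ∑ s ∈ S, (σ.real (ψ ⁻¹' {s}) : ℂ) * (G⁻¹ - s)⁻¹)) := by
    rw [ofReal_sum, ← Finset.sum_add_distrib, Finset.mul_sum, Finset.mul_sum]
    refine Finset.sum_congr rfl fun s hs => ?_
    rw [← Finset.mul_prod_erase S (fun u : ℝ => 1 - (u : ℂ) * G) hs, hjw s hs]
    have hs1 := hne s hs
    have hs2 := hsne s hs
    have hd : G⁻¹ - (s : ℂ) = (1 - (s : ℂ) * G) / G := by field_simp
    rw [hd, inv_div]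
    simp only [q, ofReal_mul, ofReal_div, ofReal_pow]
    obtain ⟨D, hD⟩ : ∃ D : ℂ, D = 1 - (s : ℂ) * G := ⟨_, rfl⟩
    rw [← hD] at hs1 ⊢
    generalize ∏ u ∈ S.erase s, (1 - (u : ℂ) * G) = P
    field_simp
    linear_combination (-((σ.real (ψ ⁻¹' {s}) : ℂ) * P)) * hD
  rw [e1, ← mul_sub, mul_eq_zero] at hf
  have hf' := hf.resolve_left (prod_ne_zero_iff.2 hne)
  have hc : (c : ℂ) = γ - ((∑ s ∈ S, q s * s : ℝ) : ℂ) := by simp [c]
  generalize ∑ s ∈ S, (σ.real (ψ ⁻¹' {s}) : ℂ) * (G⁻¹ - s)⁻¹ = T at *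
  field_simp
  linear_combination hf' + G * hc

/-- Rounding toward zero on the grid of step `h`, avoiding zero. -/
noncomputable def grid (r h x : ℝ) : ℝ :=
  if h ≤ max (-r) (min r x) then ⌊max (-r) (min r x) / h⌋₊ * h
  else if max (-r) (min r x) ≤ -h then -(⌊-max (-r) (min r x) / h⌋₊ * h) else -h

theorem grid_facts {r h : ℝ} (hr : 0 ≤ r) (hh : 0 < h) :
    Measurable (grid r h) ∧
      (∃ S : Finset ℝ, (∀ x, grid r h x ∈ S) ∧ (0 : ℝ) ∉ S ∧ ∀ s ∈ S, |s| ≤ max r h) ∧
      ∀ x, |x| ≤ r → |grid r h x - x| ≤ 2 * h ∧ grid r h x ≤ max x 0 := by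
  classical
  refine ⟨?_, ?_, fun x hx => ?_⟩
  · have hy : Measurable fun x : ℝ => max (-r) (min r x) := by fun_prop
    exact Measurable.ite (measurableSet_le measurable_const hy) (by fun_prop)
      (Measurable.ite (measurableSet_le hy measurable_const) (by fun_prop) measurable_const)
  · set K := max 1 ⌊r / h⌋₊
    have hK : (K : ℝ) * h ≤ max r h := by
      rcases max_choice 1 ⌊r / h⌋₊ with h1 | h1
      · simp [K, h1]
      · refine le_max_of_le_left ?_
        simp only [K, h1]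
        exact (le_div_iff₀ hh).1 (Nat.floor_le (div_nonneg hr hh.le))
    refine ⟨(Finset.Icc 1 K).image (fun k : ℕ => (k : ℝ) * h) ∪ (Finset.Icc 1 K).image (fun k : ℕ => -((k : ℝ) * h)),
      fun x => ?_, ?_, fun s hs => ?_⟩
    · set y := max (-r) (min r x)
      have hy1 : -r ≤ y := le_max_left _ _
      have hy2 : y ≤ r := max_le (by linarith) (min_le_left _ _)
      simp only [grid, Finset.mem_union, Finset.mem_image, Finset.mem_Icc]
      split_ifs with a b
      · exact Or.inl ⟨_, ⟨Nat.le_floor (by rw [le_div_iff₀ hh]; push_cast; linarith),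
          le_max_of_le_right (Nat.floor_le_floor (div_le_div_of_nonneg_right hy2 hh.le))⟩, rfl⟩
      · exact Or.inr ⟨_, ⟨Nat.le_floor (by rw [le_div_iff₀ hh]; push_cast; linarith),
          le_max_of_le_right (Nat.floor_le_floor (div_le_div_of_nonneg_right (by linarith) hh.le))⟩, rfl⟩
      · exact Or.inr ⟨1, ⟨le_rfl, le_max_left _ _⟩, by simp⟩
    · simp only [Finset.mem_union, Finset.mem_image, Finset.mem_Icc, not_or, not_exists, not_and]
      refine ⟨fun k hk h0 => ?_, fun k hk h0 => ?_⟩ <;>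
        · have : (0 : ℝ) < k * h := mul_pos (by exact_mod_cast hk.1) hh
          linarith
    · have : ∃ k : ℕ, k ≤ K ∧ |s| = k * h := by
        rcases Finset.mem_union.1 hs with h1 | h1 <;> obtain ⟨k, hk, rfl⟩ := Finset.mem_image.1 h1 <;>
          refine ⟨k, (Finset.mem_Icc.1 hk).2, ?_⟩
        · exact abs_of_nonneg (by positivity)
        · rw [abs_neg]; exact abs_of_nonneg (by positivity)
      obtain ⟨k, hk, he⟩ := this
      rw [he]
      exact le_trans (mul_le_mul_of_nonneg_right (by exact_mod_cast hk) hh.le) hK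
  · obtain ⟨h1, h2⟩ := abs_le.1 hx
    simp only [grid, min_eq_right h2, max_eq_right h1]
    split_ifs with a b
    · have f1 := Nat.floor_le (div_nonneg (hh.le.trans a) hh.le)
      have f2 := Nat.lt_floor_add_one (x / h)
      rw [le_div_iff₀ hh] at f1
      rw [div_lt_iff₀ hh] at f2
      exact ⟨abs_le.2 ⟨by linarith, by linarith⟩, le_max_of_le_left f1⟩
    · have f1 := Nat.floor_le (div_nonneg (show 0 ≤ -x by linarith) hh.le)
      have f2 := Nat.lt_floor_add_one (-x / h)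
      rw [le_div_iff₀ hh] at f1
      rw [div_lt_iff₀ hh] at f2
      exact ⟨abs_le.2 ⟨by linarith, by linarith⟩, le_max_of_le_right (neg_nonpos.2 (by positivity))⟩
    · exact ⟨abs_le.2 ⟨by linarith, by linarith⟩, le_max_of_le_right (by linarith)⟩

end Vale.Agent.P166.Levy
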