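import Vale.Agent.P166.Levy.Basic

/-!
The upper end of the law of a free Lévy pair, in both directions.
-/

open MeasureTheory Filter Topology Complex

namespace Vale.Agent.P166.Levy

variable {μ σ : Measure ℝ} {γ : ℝ} {u z : ℂ}

/-- Second moduli on both sides of the equation. -/
theorem Lev.normSq_eq [IsFiniteMeasure σ] [IsProbabilityMeasure μ] (h : Lev γ σ μ) (hz : 0 < z.im) :
    normSq (st μ z) = isq μ z * (1 - isq σ (st μ z)⁻¹) := by
  obtain ⟨e, -⟩ := h.im_eq hz
  have h0 : normSq (st μ z) ≠ 0 := fun h0 => by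
    have := st_im_neg (μ := μ) hz
    rw [normSq_eq_zero] at h0
    simp [h0] at this
  have e1 : ((st μ z)⁻¹).im = z.im * isq μ z / normSq (st μ z) := by
    rw [inv_im, st, im_kernel hz.ne', neg_neg]
  rw [e1, div_mul_eq_mul_div, eq_div_iff h0, mul_assoc] at e
  exact mul_left_cancel₀ hz.ne' e

/-- Continuity of both kernels at a real point right of the support. -/
theorem tendsto_kernel [IsFiniteMeasure σ] {s c : ℝ} (hs : ∀ᵐ x ∂σ, x ≤ s) (hc : s < c) {w : ℕ → ℂ}
    (hw : Tendsto w atTop (𝓝 (c : ℂ))) :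
    Tendsto (fun n => ∫ x : ℝ, (w n - (x : ℂ))⁻¹ ∂σ) atTop (𝓝 ((∫ x, (c - x)⁻¹ ∂σ : ℝ) : ℂ)) ∧
      Tendsto (fun n => isq σ (w n)) atTop (𝓝 (∫ x, ((c - x) ^ 2)⁻¹ ∂σ)) := by
  set η := (c - s) / 2
  have hη : 0 < η := half_pos (sub_pos.2 hc)
  have hre : Tendsto (fun n => (w n).re) atTop (𝓝 c) := by
    simpa [Function.comp_def] using (Complex.continuous_re.tendsto _).comp hw
  have hev : ∀ᶠ n in atTop, ∀ x : ℝ, x ≤ s → η ≤ ‖w n - (x : ℂ)‖ := by
    filter_upwards [hre.eventually (lt_mem_nhds (show s + η < c by simp only [η]; linarith))] with n hn x hx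
    have := (le_abs_self _).trans (abs_re_le_norm (w n - (x : ℂ)))
    simp only [sub_re, ofReal_re] at this
    linarith
  constructor
  · rw [← integral_complex_ofReal]
    refine tendsto_integral_filter_of_dominated_convergence (fun _ => η⁻¹)
      (Eventually.of_forall fun n => Measurable.aestronglyMeasurable (by fun_prop))
      (hev.mono fun n hn => hs.mono fun x hx => ?_) (integrable_const _) (hs.mono fun x hx => ?_)
    · rw [norm_inv]; exact inv_anti₀ hη (hn x hx)
    · have h0 : (c : ℂ) - (x : ℂ) ≠ 0 := by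
        rw [← ofReal_sub, ne_eq, ofReal_eq_zero]; linarith
      push_cast
      exact (hw.sub_const _).inv₀ h0
  · refine tendsto_integral_filter_of_dominated_convergence (fun _ => (η ^ 2)⁻¹)
      (Eventually.of_forall fun n => Measurable.aestronglyMeasurable (by fun_prop))
      (hev.mono fun n hn => hs.mono fun x hx => ?_) (integrable_const _) (hs.mono fun x hx => ?_)
    · rw [Real.norm_eq_abs, abs_of_nonneg (inv_nonneg.2 (normSq_nonneg _)), ← Complex.sq_norm]
      exact inv_anti₀ (by positivity) (pow_le_pow_left₀ hη.le (hn x hx) 2)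
    · have e : normSq ((c : ℂ) - (x : ℂ)) = (c - x) ^ 2 := by
        rw [← ofReal_sub, normSq_ofReal, pow_two]
      rw [← e]
      refine Tendsto.inv₀ ((Complex.continuous_normSq.tendsto _).comp (hw.sub_const _)) ?_
      rw [e]
      exact (pow_pos (by linarith) 2).ne'

/-- The real kernel is continuous right of the support. -/
theorem continuousOn_kernel [IsFiniteMeasure σ] {s a b : ℝ} (hs : ∀ᵐ x ∂σ, x ≤ s) (ha : s < a) :
    ContinuousOn (fun c => ∫ x, (c - x)⁻¹ ∂σ) (Set.Icc a b) := by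
  refine continuousOn_of_dominated (bound := fun _ => (a - s)⁻¹)
    (fun c _ => Measurable.aestronglyMeasurable (by fun_prop))
    (fun c hc => hs.mono fun x hx => ?_) (integrable_const _) (hs.mono fun x hx => ?_)
  · rw [Real.norm_eq_abs, abs_of_nonneg (inv_nonneg.2 (by linarith [hc.1]))]
    exact inv_anti₀ (by linarith) (by linarith [hc.1])
  · exact (continuousOn_id.sub continuousOn_const).inv₀ fun c hc => (sub_pos.2 (show x < c by linarith [hc.1])).ne'

theorem integrable_real [IsFiniteMeasure σ] {s c : ℝ} (hs : ∀ᵐ x ∂σ, x ≤ s) (hc : s < c) :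
    Integrable (fun x => (c - x)⁻¹) σ :=
  Integrable.of_bound (Measurable.aestronglyMeasurable (by fun_prop)) (c - s)⁻¹ (hs.mono fun x hx => by
    rw [Real.norm_eq_abs, abs_of_nonneg (inv_nonneg.2 (by linarith))]
    exact inv_anti₀ (by linarith) (by linarith))

theorem real_pos [IsProbabilityMeasure μ] {e t : ℝ} (he : ∀ᵐ y ∂μ, y ≤ e) (ht : e < t) :
    0 < ∫ y, (t - y)⁻¹ ∂μ := by
  refine (integral_pos_iff_support_of_nonneg_ae
    (he.mono fun y hy => inv_nonneg.2 (by linarith)) (integrable_real he ht)).2 ?_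
  have h : (Function.support fun y : ℝ => (t - y)⁻¹) =ᵐ[μ] Set.univ :=
    eventuallyEq_univ.2 (he.mono fun y hy => by
      simp only [ne_eq, inv_eq_zero]; linarith)
  rw [measure_congr h, measure_univ]; exact one_pos

theorem tendsto_shift (t : ℝ) :
    Tendsto (fun n : ℕ => (t : ℂ) + ((1 / ((n : ℝ) + 1) : ℝ) : ℂ) * I) atTop (𝓝 (t : ℂ)) := by
  have h := (((Complex.continuous_ofReal.tendsto (0 : ℝ)).comp
    (tendsto_one_div_add_atTop_nhds_zero_nat (𝕜 := ℝ))).mul_const I).const_add (t : ℂ)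
  simpa [Function.comp_def] using h

/-- Every point right of the law is reached by the real equation, inside its region. -/
theorem Lev.edge [IsFiniteMeasure σ] [IsProbabilityMeasure μ] (h : Lev γ σ μ) {e t : ℝ}
    (he : ∀ᵐ y ∂μ, y ≤ e) (ht : e < t) :
    ∃ c c', c' < c ∧ 0 < c' ∧ (∀ᵐ x ∂σ, x ≤ c') ∧ c + γ + ∫ x, (c - x)⁻¹ ∂σ = t ∧
      ∫ x, ((c - x) ^ 2)⁻¹ ∂σ < 1 := by
  set G : ℝ → ℝ := fun a => ∫ y, (a - y)⁻¹ ∂μ
  set v : ℝ → ℝ := fun a => (G a)⁻¹
  set zs : ℝ → ℕ → ℂ := fun a n => (a : ℂ) + ((1 / ((n : ℝ) + 1) : ℝ) : ℂ) * I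
  have hzs : ∀ a n, 0 < (zs a n).im := fun a n => by
    simp only [zs, add_im, mul_im, ofReal_im, ofReal_re, I_re, I_im, mul_zero, mul_one, zero_add, add_zero]
    positivity
  have hG : ∀ a, e < a → 0 < G a := fun a ha => real_pos he ha
  have hst : ∀ a, e < a → Tendsto (fun n => st μ (zs a n)) atTop (𝓝 ((G a : ℝ) : ℂ)) :=
    fun a ha => (tendsto_kernel he ha (tendsto_shift a)).1
  have hv : ∀ a, e < a → Tendsto (fun n => (st μ (zs a n))⁻¹) atTop (𝓝 ((v a : ℝ) : ℂ)) := fun a ha => by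
    simp only [v, ofReal_inv]
    exact (hst a ha).inv₀ (ofReal_ne_zero.2 (hG a ha).ne')
  have hlow : ∀ a, e < a → a - e ≤ v a := fun a ha => by
    have h1 : G a ≤ (a - e)⁻¹ := by
      have := integral_mono_ae (integrable_real he ha) (integrable_const (μ := μ) (a - e)⁻¹)
        (he.mono fun y hy => inv_anti₀ (show 0 < a - e by linarith) (by linarith))
      simpa [G] using this
    have := inv_anti₀ (hG a ha) h1
    rwa [inv_inv] at this
  have hnull : ∀ a, e < a → ∀ᵐ x ∂σ, x ≤ v a := fun a ha => by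
    rw [ae_iff]
    simp only [not_le]
    refine null_Ioi (M := 1) fun c hc δ hδ => ?_
    have hcont : ContinuousOn v (Set.Icc a (max a (c + e))) :=
      (continuousOn_kernel he ha).inv₀ fun b hb => (hG b (lt_of_lt_of_le ha hb.1)).ne'
    have hB : c ≤ v (max a (c + e)) := by
      have := hlow _ (lt_of_lt_of_le ha (le_max_left a (c + e)))
      linarith [le_max_right a (c + e)]
    obtain ⟨b, hb, rfl⟩ := intermediate_value_Icc (le_max_left _ _) hcont ⟨hc, hB⟩
    exact small_ball (hv b (lt_of_lt_of_le ha hb.1)) (fun n => (st_inv_im (hzs b n)).ne')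
      (Eventually.of_forall fun n => (h.im_eq (hzs b n)).2.le) hδ
  set t' := (t + e) / 2
  have ht1 : e < t' := by simp only [t']; linarith
  have ht2 : t' < t := by simp only [t']; linarith
  have hlt : v t' < v t := by
    refine inv_strictAnti₀ (hG t ht) (sub_pos.1 ?_)
    rw [show G t' - G t = ∫ y, ((t' - y)⁻¹ - (t - y)⁻¹) ∂μ from
      (integral_sub (integrable_real he ht1) (integrable_real he ht)).symm]
    refine (integral_pos_iff_support_of_nonneg_ae
      (he.mono fun y hy => sub_nonneg.2 (inv_anti₀ (by linarith) (by linarith)))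
      ((integrable_real he ht1).sub (integrable_real he ht))).2 ?_
    have h1 : (Function.support fun y : ℝ => (t' - y)⁻¹ - (t - y)⁻¹) =ᵐ[μ] Set.univ :=
      eventuallyEq_univ.2 (he.mono fun y hy => fun h0 => by
        rw [sub_eq_zero, inv_inj] at h0; linarith)
    rw [measure_congr h1, measure_univ]
    exact one_pos
  have him : Tendsto (fun n => isq σ (st μ (zs t n))⁻¹) atTop (𝓝 (∫ x, ((v t - x) ^ 2)⁻¹ ∂σ)) :=
    (tendsto_kernel (hnull t' ht1) hlt (hv t ht)).2
  refine ⟨v t, v t', hlt, lt_of_lt_of_le (sub_pos.2 ht1) (hlow t' ht1), hnull t' ht1, ?_, ?_⟩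
  · have h1 := tendsto_nhds_unique ((((hv t ht).add_const (γ : ℂ)).add
      (tendsto_kernel (hnull t' ht1) hlt (hv t ht)).1).congr fun n => (h _ (hzs t n)).symm) (tendsto_shift t)
    exact_mod_cast h1
  · set k := ∫ x, ((v t - x) ^ 2)⁻¹ ∂σ
    have hd : 0 < t - e := sub_pos.2 ht
    have hb : ∀ n, normSq (st μ (zs t n)) * (t - e) ^ 2 ≤ 1 - isq σ (st μ (zs t n))⁻¹ := fun n => by
      have h1 : isq μ (zs t n) ≤ ((t - e) ^ 2)⁻¹ := by
        refine (integral_mono_ae (integrable_isq (hzs t n).ne') (integrable_const ((t - e) ^ 2)⁻¹) (he.mono fun y hy => ?_)).trans_eq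
          (by simp)
        refine inv_anti₀ (by positivity) ?_
        rw [normSq_apply]
        simp only [zs, sub_re, add_re, ofReal_re, mul_re, I_re, I_im, mul_zero, ofReal_im, zero_mul, sub_self,
          add_zero]
        nlinarith [mul_self_nonneg ((zs t n - (y : ℂ)).im)]
      rw [h.normSq_eq (hzs t n)]
      calc isq μ (zs t n) * (1 - isq σ (st μ (zs t n))⁻¹) * (t - e) ^ 2
          ≤ ((t - e) ^ 2)⁻¹ * (1 - isq σ (st μ (zs t n))⁻¹) * (t - e) ^ 2 := by
            gcongr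
            exact sub_nonneg.2 (h.im_eq (hzs t n)).2.le
        _ = _ := by field_simp
    have h2 := le_of_tendsto_of_tendsto'
      (((Complex.continuous_normSq.tendsto _).comp (hst t ht)).mul_const ((t - e) ^ 2)) (him.const_sub 1) hb
    rw [normSq_ofReal] at h2
    have : 0 < G t * G t * (t - e) ^ 2 := mul_pos (mul_pos (hG t ht) (hG t ht)) (by positivity)
    linarith

/-- A value of the real equation inside its region bounds the law. -/
theorem Lev.top_le [IsFiniteMeasure σ] [IsProbabilityMeasure μ] (h : Lev γ σ μ) {s c₀ k : ℝ}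
    (hs : ∀ᵐ x ∂σ, x ≤ s) (hsc : s < c₀) (hc : 0 < c₀) (hk : ∫ x, ((c₀ - x) ^ 2)⁻¹ ∂σ ≤ k) (hk1 : k < 1) :
    ∀ᵐ y ∂μ, y ≤ c₀ + γ + ∫ x, (c₀ - x)⁻¹ ∂σ := by
  set H : ℝ → ℝ := fun c => c + γ + ∫ x, (c - x)⁻¹ ∂σ
  rw [ae_iff]
  simp only [not_le]
  refine null_Ioi (M := (c₀ ^ 2 * (1 - k))⁻¹) fun a ha δ hδ => ?_
  have hcont : ContinuousOn H (Set.Icc c₀ (max c₀ (a - γ))) :=
    (continuousOn_id.add continuousOn_const).add (continuousOn_kernel hs hsc)
  have hB : a ≤ H (max c₀ (a - γ)) := by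
    have : 0 ≤ ∫ x, (max c₀ (a - γ) - x)⁻¹ ∂σ :=
      integral_nonneg_of_ae (hs.mono fun x hx => inv_nonneg.2 (by linarith [le_max_left c₀ (a - γ)]))
    simp only [H]
    linarith [le_max_right c₀ (a - γ)]
  obtain ⟨c, hc', rfl⟩ := intermediate_value_Icc (le_max_left _ _) hcont ⟨ha, hB⟩
  set w : ℕ → ℂ := fun n => (c : ℂ) + ((1 / ((n : ℝ) + 1) : ℝ) : ℂ) * I
  set zn : ℕ → ℂ := fun n => w n + γ + ∫ x : ℝ, (w n - (x : ℂ))⁻¹ ∂σ
  have hwim : ∀ n, 0 < (w n).im := fun n => by
    simp only [w, add_im, mul_im, ofReal_im, ofReal_re, I_re, I_im, mul_zero, mul_one, zero_add, add_zero]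
    positivity
  have hwre : ∀ n, (w n).re = c := fun n => by simp [w, mul_re]
  have hisq : ∀ n, isq σ (w n) ≤ k := fun n => by
    refine le_trans (integral_mono_ae (integrable_isq (hwim n).ne') ?_ (hs.mono fun x hx => ?_)) hk
    · exact Integrable.of_bound (Measurable.aestronglyMeasurable (by fun_prop)) ((c₀ - s) ^ 2)⁻¹
        (hs.mono fun x hx => by
          rw [Real.norm_eq_abs, abs_of_nonneg (inv_nonneg.2 (sq_nonneg _))]
          exact inv_anti₀ (pow_pos (sub_pos.2 hsc) 2) (pow_le_pow_left₀ (by linarith) (by linarith) 2))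
    · refine inv_anti₀ (pow_pos (by linarith) 2) ?_
      rw [normSq_apply, sub_re, ofReal_re, hwre]
      nlinarith [mul_self_nonneg ((w n - (x : ℂ)).im), hc'.1]
  have hzim : ∀ n, 0 < (zn n).im := fun n => by
    simp only [zn, add_im, ofReal_im, add_zero, im_kernel (hwim n).ne']
    nlinarith [hisq n, hwim n]
  have hst : ∀ n, (st μ (zn n))⁻¹ = w n := fun n =>
    solution_unique (σ := σ) (st_inv_im (hzim n)).ne' (hwim n).ne' (h.im_eq (hzim n)).2
      (lt_of_le_of_lt (hisq n) hk1) (by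
        have := h _ (hzim n)
        simp only [zn] at this ⊢
        linear_combination -this)
  have hM : ∀ n, isq μ (zn n) ≤ (c₀ ^ 2 * (1 - k))⁻¹ := fun n => by
    have e := h.normSq_eq (hzim n)
    rw [hst, show st μ (zn n) = (w n)⁻¹ by rw [← hst n, inv_inv], map_inv₀] at e
    have h1 : c₀ ^ 2 ≤ normSq (w n) := by
      rw [normSq_apply, hwre]
      nlinarith [mul_self_nonneg (w n).im, hc'.1]
    have h2 : (normSq (w n))⁻¹ ≤ (c₀ ^ 2)⁻¹ := inv_anti₀ (by positivity) h1
    rw [mul_inv, ← div_eq_mul_inv, le_div_iff₀ (by linarith)]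
    have h3 : 0 ≤ isq μ (zn n) := integral_nonneg fun x => inv_nonneg.2 (normSq_nonneg _)
    calc isq μ (zn n) * (1 - k) ≤ isq μ (zn n) * (1 - isq σ (w n)) :=
          mul_le_mul_of_nonneg_left (by linarith [hisq n]) h3
      _ = (normSq (w n))⁻¹ := e.symm
      _ ≤ _ := h2
  have hlim : Tendsto zn atTop (𝓝 ((H c : ℝ) : ℂ)) := by
    simp only [H, ofReal_add]
    exact ((tendsto_shift c).add_const _).add
      (tendsto_kernel hs (lt_of_lt_of_le hsc hc'.1) (tendsto_shift c)).1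
  exact small_ball hlim (fun n => (hzim n).ne') (Eventually.of_forall hM) hδ

/-- An explicit bound on the support. -/
noncomputable def bnd (γ : ℝ) (σ : Measure ℝ) (r : ℝ) : ℝ :=
  |γ| + r + 2 * σ.real Set.univ + 2

theorem Lev.le_bnd [IsFiniteMeasure σ] [IsProbabilityMeasure μ] (h : Lev γ σ μ) {r : ℝ} (hr : 0 ≤ r)
    (hσ : ∀ᵐ x ∂σ, |x| ≤ r) : ∀ᵐ y ∂μ, y ≤ bnd γ σ r := by
  set m := σ.real Set.univ
  have hm : 0 ≤ m := measureReal_nonneg
  have hs : ∀ᵐ x ∂σ, x ≤ r := hσ.mono fun x hx => (le_abs_self x).trans hx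
  set c := r + m + 2
  have hk : ∫ x, ((c - x) ^ 2)⁻¹ ∂σ ≤ 1 / 2 := by
    refine ((Real.le_norm_self _).trans (norm_integral_le_of_norm_le_const (C := ((m + 2) ^ 2)⁻¹)
      (hs.mono fun x hx => ?_))).trans ?_
    · rw [Real.norm_eq_abs, abs_of_nonneg (inv_nonneg.2 (sq_nonneg _))]
      exact inv_anti₀ (by positivity) (pow_le_pow_left₀ (by positivity) (by simp only [c]; linarith) 2)
    · show ((m + 2) ^ 2)⁻¹ * m ≤ 1 / 2
      rw [inv_mul_le_iff₀ (by positivity)]
      nlinarith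
  have hS : ∫ x, (c - x)⁻¹ ∂σ ≤ m := by
    refine ((Real.le_norm_self _).trans (norm_integral_le_of_norm_le_const (C := 1)
      (hs.mono fun x hx => ?_))).trans_eq (by simp [m])
    rw [Real.norm_eq_abs, abs_of_nonneg (inv_nonneg.2 (by simp only [c]; linarith))]
    exact inv_le_one_of_one_le₀ (by simp only [c]; linarith)
  filter_upwards [h.top_le (c₀ := c) hs (by simp only [c]; linarith) (by positivity) hk (by norm_num)] with y hy
  simp only [bnd, c] at hy ⊢
  linarith [le_abs_self γ]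

theorem Lev.abs_le_bnd [IsFiniteMeasure σ] [IsProbabilityMeasure μ] (h : Lev γ σ μ) {r : ℝ} (hr : 0 ≤ r)
    (hσ : ∀ᵐ x ∂σ, |x| ≤ r) : ∀ᵐ y ∂μ, |y| ≤ bnd γ σ r := by
  have : IsProbabilityMeasure (μ.map fun x => -x) := Measure.isProbabilityMeasure_map (by fun_prop)
  have h2 := h.neg.le_bnd hr ((ae_map_iff (by fun_prop) (measurableSet_le (by fun_prop) measurable_const)).2
    (hσ.mono fun x hx => by rwa [abs_neg]))
  have e : bnd (-γ) (σ.map fun x => -x) r = bnd γ σ r := by
    simp [bnd, measureReal_def, Measure.map_apply measurable_neg MeasurableSet.univ]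
  rw [e] at h2
  filter_upwards [h.le_bnd hr hσ, ae_of_ae_map (by fun_prop) h2] with y h1 h3
  exact abs_le.2 ⟨by linarith, h1⟩

end Vale.Agent.P166.Levy
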