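import Vale.Agent.P166.Levy.Approx

/-!
The pressure for deterministic spectra tending to any compactly supported law of a free Lévy pair.
-/

open MeasureTheory Filter Topology Complex

namespace Vale.Agent.P166.Levy

open Free (tdv tdv_mem lipschitz_tdv)

variable {γ β r : ℝ} {σ : Measure ℝ}

/-- Laws with approximating pairs tend, along a subsequence, to a law of the limiting pair. -/
theorem exists_limit [IsFiniteMeasure σ] (γ : ℝ) {B : ℝ} {ψ : ℕ → ℝ → ℝ} (hψ : ∀ j, Measurable (ψ j))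
    (hlim : ∀ᵐ x ∂σ, Tendsto (fun j => ψ j x) atTop (𝓝 x)) {m : ℕ → Measure ℝ}
    (hm : ∀ j, IsProbabilityMeasure (m j)) (hlev : ∀ j, Lev γ (σ.map (ψ j)) (m j))
    (hB : ∀ j, ∀ᵐ y ∂m j, |y| ≤ B) :
    ∃ (μ : Measure ℝ) (φ : ℕ → ℕ), IsProbabilityMeasure μ ∧ StrictMono φ ∧ Lev γ σ μ ∧
      (∀ᵐ y ∂μ, |y| ≤ B) ∧ ∀ f : ℝ → ℝ, Continuous f →
        Tendsto (fun j => ∫ y, f y ∂m (φ j)) atTop (𝓝 (∫ y, f y ∂μ)) := by
  have hB0 : -B ≤ B := by
    obtain ⟨y, hy⟩ := (hB 0).exists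
    linarith [abs_nonneg y]
  set p : ℝ → Set.Icc (-B) B := Set.projIcc (-B) B hB0
  have hpm : Measurable p := continuous_projIcc.measurable
  have hval : ∀ j, ∀ᵐ y ∂m j, ((p y : Set.Icc (-B) B) : ℝ) = y := fun j => (hB j).mono fun y hy => by
    simp only [p, Set.projIcc_of_mem hB0 (abs_le.1 hy)]
  set P : ℕ → ProbabilityMeasure (Set.Icc (-B) B) := fun j =>
    ⟨(m j).map p, Measure.isProbabilityMeasure_map hpm.aemeasurable⟩
  obtain ⟨P₀, φ, hφ, hP⟩ := CompactSpace.tendsto_subseq P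
  set μ := (P₀ : Measure (Set.Icc (-B) B)).map Subtype.val
  have hμp : IsProbabilityMeasure μ := Measure.isProbabilityMeasure_map measurable_subtype_coe.aemeasurable
  have hμB : ∀ᵐ y ∂μ, |y| ≤ B :=
    (ae_map_iff measurable_subtype_coe.aemeasurable (measurableSet_le (by fun_prop) measurable_const)).2
      (ae_of_all _ fun y => abs_le.2 y.2)
  have hR : ∀ f : ℝ → ℝ, Continuous f →
      Tendsto (fun j => ∫ y, f y ∂m (φ j)) atTop (𝓝 (∫ y, f y ∂μ)) := fun f hf => by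
    have h := (ProbabilityMeasure.tendsto_iff_forall_integral_tendsto.1 hP)
      (BoundedContinuousFunction.mkOfCompact ⟨fun y => f y, by fun_prop⟩)
    rw [integral_map measurable_subtype_coe.aemeasurable hf.aestronglyMeasurable]
    refine h.congr fun j => ?_
    simp only [Function.comp, P, ProbabilityMeasure.coe_mk, BoundedContinuousFunction.mkOfCompact_apply,
      ContinuousMap.coe_mk]
    rw [integral_map hpm.aemeasurable (Continuous.aestronglyMeasurable (by fun_prop))]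
    exact integral_congr_ae ((hval (φ j)).mono fun y hy => by simp only [hy])
  refine ⟨μ, φ, hμp, hφ, fun z hz => ?_, hμB, hR⟩
  have hne : ∀ y : ℝ, z - (y : ℂ) ≠ 0 := fun y h => hz.ne' (by simpa using congrArg Complex.im h)
  have hK : Continuous fun y : ℝ => (z - (y : ℂ))⁻¹ := (continuous_const.sub continuous_ofReal).inv₀ hne
  have hst : Tendsto (fun j => st (m (φ j)) z) atTop (𝓝 (st μ z)) := by
    have hre := hR _ (Complex.continuous_re.comp hK)
    have him := hR _ (Complex.continuous_im.comp hK)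
    have hsplit : ∀ (ν : Measure ℝ) [IsProbabilityMeasure ν], st ν z =
        ((∫ y : ℝ, ((z - (y : ℂ))⁻¹).re ∂ν : ℝ) : ℂ) + ((∫ y : ℝ, ((z - (y : ℂ))⁻¹).im ∂ν : ℝ) : ℂ) * I :=
      fun ν _ => (integral_re_add_im (integrable_kernel hz.ne')).symm
    rw [hsplit μ]
    refine (((continuous_ofReal.tendsto _).comp hre).add
      (((continuous_ofReal.tendsto _).comp him).mul_const I)).congr fun j => ?_
    have := hm (φ j)
    rw [hsplit (m (φ j))]
    rfl
  set u := (st μ z)⁻¹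
  have hu : 0 < u.im := st_inv_im hz
  have h0 : st μ z ≠ 0 := fun h => by simp [u, h] at hu
  have hw : Tendsto (fun j => (st (m (φ j)) z)⁻¹) atTop (𝓝 u) := hst.inv₀ h0
  have hev : ∀ᶠ j in atTop, u.im / 2 < ((st (m (φ j)) z)⁻¹).im :=
    ((Complex.continuous_im.tendsto _).comp hw).eventually (lt_mem_nhds (half_lt_self hu))
  have hS : Tendsto (fun j => ∫ x, ((st (m (φ j)) z)⁻¹ - (x : ℂ))⁻¹ ∂σ.map (ψ (φ j))) atTop
      (𝓝 (∫ x : ℝ, (u - (x : ℂ))⁻¹ ∂σ)) := by
    have e : ∀ j, ∫ x, ((st (m (φ j)) z)⁻¹ - (x : ℂ))⁻¹ ∂σ.map (ψ (φ j))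
        = ∫ x, ((st (m (φ j)) z)⁻¹ - (ψ (φ j) x : ℂ))⁻¹ ∂σ := fun j =>
      integral_map (hψ _).aemeasurable (Measurable.aestronglyMeasurable (by fun_prop))
    simp only [e]
    refine tendsto_integral_filter_of_dominated_convergence (fun _ => (u.im / 2)⁻¹)
      (Eventually.of_forall fun j => Measurable.aestronglyMeasurable (by have := hψ (φ j); fun_prop))
      (hev.mono fun j hj => ae_of_all _ fun x => ?_) (integrable_const _) (hlim.mono fun x hx => ?_)
    · rw [norm_inv]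
      exact inv_anti₀ (half_pos hu) ((hj.le.trans (le_abs_self _)).trans (abs_im_le _))
    · refine (hw.sub ((continuous_ofReal.tendsto _).comp (hx.comp hφ.tendsto_atTop))).inv₀ ?_
      exact fun h => hu.ne' (by simpa using congrArg Complex.im h)
  have h2 : Tendsto (fun _ : ℕ => z) atTop (𝓝 (u + γ + ∫ x : ℝ, (u - (x : ℂ))⁻¹ ∂σ)) :=
    ((hw.add_const (γ : ℂ)).add hS).congr fun j => by
      have := hm (φ j)
      exact (hlev (φ j) z hz).symm
  exact tendsto_nhds_unique tendsto_const_nhds h2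

/-- Upper ends of the approximations are asymptotically at most the upper end of the limit. -/
theorem top_semicont [IsFiniteMeasure σ] (hσ : ∀ᵐ x ∂σ, |x| ≤ r) {μ : Measure ℝ} [IsProbabilityMeasure μ]
    (hlev : Lev γ σ μ) {e : ℝ} (he : ∀ᵐ y ∂μ, y ≤ e) {ψ : ℕ → ℝ → ℝ} (hψ : ∀ j, Measurable (ψ j))
    (hle : ∀ j x, |x| ≤ r → ψ j x ≤ max x 0) (hlim : ∀ᵐ x ∂σ, Tendsto (fun j => ψ j x) atTop (𝓝 x))
    {m : ℕ → Measure ℝ} (hm : ∀ j, IsProbabilityMeasure (m j)) (hml : ∀ j, Lev γ (σ.map (ψ j)) (m j))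
    {E : ℕ → ℝ} (hE : ∀ j η, 0 < η → 0 < m j (Set.Ioi (E j - η))) {η : ℝ} (hη : 0 < η) :
    ∀ᶠ j in atTop, E j ≤ e + η := by
  obtain ⟨c, c', hcc, hc', hσc, heq, hk⟩ := hlev.edge he (show e < e + η / 2 by linarith)
  have hs : ∀ j, ∀ᵐ x ∂σ, ψ j x ≤ c' := fun j => by
    filter_upwards [hσ, hσc] with x h1 h2
    exact (hle j x h1).trans (max_le h2 hc'.le)
  have hd : 0 < c - c' := sub_pos.2 hcc
  have h1 : Tendsto (fun j => ∫ x, (c - ψ j x)⁻¹ ∂σ) atTop (𝓝 (∫ x, (c - x)⁻¹ ∂σ)) := by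
    refine tendsto_integral_filter_of_dominated_convergence (fun _ => (c - c')⁻¹)
      (Eventually.of_forall fun j => Measurable.aestronglyMeasurable (by have := hψ j; fun_prop))
      (Eventually.of_forall fun j => (hs j).mono fun x hx => ?_) (integrable_const _) ?_
    · rw [Real.norm_eq_abs, abs_of_nonneg (inv_nonneg.2 (by linarith))]
      exact inv_anti₀ hd (by linarith)
    · filter_upwards [hlim, hσc] with x hx hx'
      exact (hx.const_sub c).inv₀ (by linarith)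
  have h2 : Tendsto (fun j => ∫ x, ((c - ψ j x) ^ 2)⁻¹ ∂σ) atTop (𝓝 (∫ x, ((c - x) ^ 2)⁻¹ ∂σ)) := by
    refine tendsto_integral_filter_of_dominated_convergence (fun _ => ((c - c') ^ 2)⁻¹)
      (Eventually.of_forall fun j => Measurable.aestronglyMeasurable (by have := hψ j; fun_prop))
      (Eventually.of_forall fun j => (hs j).mono fun x hx => ?_) (integrable_const _) ?_
    · rw [Real.norm_eq_abs, abs_of_nonneg (inv_nonneg.2 (sq_nonneg _))]
      exact inv_anti₀ (by positivity) (pow_le_pow_left₀ hd.le (by linarith) 2)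
    · filter_upwards [hlim, hσc] with x hx hx'
      exact ((hx.const_sub c).pow 2).inv₀ (pow_ne_zero 2 (by linarith))
  set k := ∫ x, ((c - x) ^ 2)⁻¹ ∂σ
  filter_upwards [h1.eventually (gt_mem_nhds (lt_add_of_pos_right _ (half_pos hη))),
    h2.eventually (gt_mem_nhds (show k < (1 + k) / 2 by linarith))] with j hj1 hj2
  have := hm j
  refine top_le_of_ae (hE j) (((hml j).top_le (s := c') (c₀ := c) (k := (1 + k) / 2)
    ((ae_map_iff (hψ j).aemeasurable measurableSet_Iic).2 (hs j)) hcc (hc'.trans hcc) ?_ (by linarith)).mono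
      fun y hy => hy.trans ?_)
  · rw [integral_map (hψ j).aemeasurable (Measurable.aestronglyMeasurable (by fun_prop))]
    exact hj2.le
  · rw [integral_map (hψ j).aemeasurable (Measurable.aestronglyMeasurable (by fun_prop))]
    linarith

/-- Approximating steps give the limit of the pressure. -/
theorem diag_limit {μ : Measure ℝ} [IsProbabilityMeasure μ] {B e L : ℝ} (hβ : 0 ≤ β)
    (hμB : ∀ᵐ y ∂μ, |y| ≤ B) (htop : ∀ η, 0 < η → 0 < μ (Set.Ioi (e - η)))
    {m : ℕ → Measure ℝ} {E Ls : ℕ → ℝ} {σs : ℕ → Measure ℝ}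
    (hstep : ∀ j, Step γ β B (σs j) (m j) (E j) (Ls j))
    (hweak : ∀ f : ℝ → ℝ, Continuous f → Tendsto (fun j => ∫ y, f y ∂m j) atTop (𝓝 (∫ y, f y ∂μ)))
    (hE : ∀ η, 0 < η → ∀ᶠ j in atTop, E j ≤ e + η) (hL : Tendsto Ls atTop (𝓝 L))
    {law : ∀ N : ℕ, Measure (Fin N → Fin N → ℝ)} (hlp : ∀ N, IsProbabilityMeasure (law N))
    (hlaw : ∀ N, LeftInv (law N)) {R : ℝ} {lam : ∀ N : ℕ, Fin N → ℝ} (hlam : Spec μ e R lam) :
    Tendsto (fun N : ℕ => ∫ U, (pr β (lam N) U - L) ^ 2 ∂law N) atTop (𝓝 0) := by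
  have hgood : ∀ N, ∀ᵐ U ∂law N, Good U := fun N => (hlaw N).1.mono fun U hU => good_of_orth hU
  choose l hl1 hl2 hl3 hl4 using fun j => (hstep j).spectra law hlp hlaw
  set K := max (B + 1) 0
  have hmom : ∀ j k : ℕ, Tendsto (fun N : ℕ => (∑ i, l j N i ^ k) / N) atTop (𝓝 (∫ y, y ^ k ∂m j)) := by
    intro j k
    have h := hl1 j (fun x => (max (-K) (min K x)) ^ k) (by fun_prop) ⟨K ^ k, fun x => by
      rw [abs_pow]
      refine pow_le_pow_left₀ (abs_nonneg _) (abs_le.2 ⟨le_max_left _ _, max_le ?_ (min_le_left _ _)⟩) k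
      linarith [le_max_right (B + 1) 0]⟩
    have hid : ∀ x : ℝ, |x| ≤ K → max (-K) (min K x) = x := fun x hx => by
      rw [min_eq_right (abs_le.1 hx).2, max_eq_right (abs_le.1 hx).1]
    have := (hstep j).prob
    rw [integral_congr_ae ((hstep j).supp.mono fun x hx => show (max (-K) (min K x)) ^ k = x ^ k by
      rw [hid x (hx.trans ((le_add_of_nonneg_right zero_le_one).trans (le_max_left _ _)))])] at h
    refine h.congr' ?_
    filter_upwards [hl3 j] with N hN
    simp only [hid _ ((hN _).trans (le_max_left _ _))]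
  have hj : ∀ j, ∀ᶠ N in atTop, (∀ k ∈ Finset.range (j + 1),
        |(∑ i, l j N i ^ k) / N - ∫ y, y ^ k ∂m j| ≤ 1 / ((j : ℝ) + 1)) ∧
      (∀ i, l j N i ≤ E j + 1 / ((j : ℝ) + 1)) ∧ (∀ i, |l j N i| ≤ B + 1) ∧
      ∫ U, tdv (Ls j) (pr β (l j N) U) ∂law N ≤ 1 / ((j : ℝ) + 1) := fun j => by
    have hp : (0 : ℝ) < 1 / ((j : ℝ) + 1) := by positivity
    filter_upwards [(eventually_all_finset (Finset.range (j + 1))).2 fun k _ =>
        (hmom j k).eventually (Metric.closedBall_mem_nhds _ hp),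
      hl2 j _ hp, hl3 j, (hl4 j).eventually (ge_mem_nhds hp)] with N h1 h2 h3 h4
    exact ⟨fun k hk => by simpa [Real.dist_eq] using h1 k hk, h2, h3, h4⟩
  obtain ⟨J, hJ⟩ := diag hj
  have hJt : Tendsto J atTop atTop := tendsto_atTop.2 fun j => (hJ j).mono fun N h => h.1
  have h1div : Tendsto (fun N => 1 / ((J N : ℝ) + 1)) atTop (𝓝 0) :=
    (tendsto_one_div_add_atTop_nhds_zero_nat (𝕜 := ℝ)).comp hJt
  set l' : ∀ N : ℕ, Fin N → ℝ := fun N => l (J N) N
  have hbd : ∀ᶠ N in atTop, ∀ i, |l' N i| ≤ B + 1 := (hJ 0).mono fun N h => h.2.2.2.1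
  have hspec : Spec μ e (B + 1) l' := by
    refine ⟨Free.empTo_moments (C := B + 1) (hμB.mono fun y hy => hy.trans (le_add_of_nonneg_right zero_le_one))
      (fun k => rfl) hbd fun k => ?_, fun η hη => ?_, hbd.mono fun N h i => (abs_le.1 (h i)).1⟩
    · have h1 : Tendsto (fun N => (∑ i, l' N i ^ k) / N - ∫ y, y ^ k ∂m (J N)) atTop (𝓝 0) := by
        refine squeeze_zero_norm' ?_ h1div
        filter_upwards [hJ k] with N hN
        exact hN.2.1 k (Finset.mem_range.2 (by omega))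
      simpa using h1.add ((hweak _ (continuous_pow k)).comp hJt)
    · filter_upwards [hJt.eventually (hE (η / 2) (half_pos hη)), h1div.eventually (ge_mem_nhds (half_pos hη)),
        hJ 0] with N h1 h2 h3 i
      have := h3.2.2.1 i
      simp only [l']
      linarith
  have hdev : Tendsto (fun N => ∫ U, tdv L (pr β (l' N) U) ∂law N) atTop (𝓝 0) := by
    refine squeeze_zero' (Eventually.of_forall fun N => integral_nonneg fun U => (tdv_mem L _).1) ?_
      (by simpa using h1div.add (((hL.comp hJt).const_sub L).abs))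
    filter_upwards [hJ 0] with N hN
    refine (integral_mono (integrable_tdv L N _) ((integrable_tdv (Ls (J N)) N _).fun_add (integrable_const _))
      fun U => tdv_le L (Ls (J N)) _).trans ?_
    rw [integral_add (integrable_tdv _ N _) (integrable_const _), integral_const, probReal_univ, one_smul]
    exact add_le_add (hN.2.2.2.2.trans_eq (one_div _)) le_rfl
  set R' := max R (B + 1)
  have hlam' : Spec μ e R' lam := ⟨hlam.1, hlam.2.1, hlam.2.2.mono fun N h i => by linarith [h i, le_max_left R (B + 1)]⟩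
  have hl' : Spec μ e R' l' := ⟨hspec.1, hspec.2.1, hspec.2.2.mono fun N h i => by linarith [h i, le_max_right R (B + 1)]⟩
  have hu := spec_universal (law := law) (β := β) hgood (fun N τ => leftInv_perm (hlaw N) τ) hβ htop
    hlam' hl' (lipschitz_tdv L)
  refine sq_of_tdv hgood hβ (K := max R' (e + 1)) ?_ (by simpa using hu.add hdev)
  filter_upwards [hlam'.2.1 1 one_pos, hlam'.2.2] with N h1 h2 i
  exact abs_le.2 ⟨by linarith [h2 i, le_max_left R' (e + 1)], (h1 i).trans (le_max_right _ _)⟩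

/-- The pressure converges for every compactly supported law with a free Lévy pair. -/
theorem levy_limit [IsFiniteMeasure σ] (γ : ℝ) (hr : 0 ≤ r) (hσ : ∀ᵐ x ∂σ, |x| ≤ r) (hβ : 0 ≤ β)
    (hβr : β * r ≤ 1 / 25) :
    ∃ (μ : Measure ℝ) (_ : IsProbabilityMeasure μ) (C e L : ℝ), (∀ᵐ y ∂μ, |y| ≤ C) ∧ Lev γ σ μ ∧
      (∀ μ' : Measure ℝ, IsProbabilityMeasure μ' → Lev γ σ μ' → μ' = μ) ∧
      (∀ᵐ y ∂μ, y ≤ e) ∧ (∀ η, 0 < η → 0 < μ (Set.Ioi (e - η))) ∧
      ∀ (law : ∀ N : ℕ, Measure (Fin N → Fin N → ℝ)), (∀ N, IsProbabilityMeasure (law N)) →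
        (∀ N, LeftInv (law N)) → ∀ (R : ℝ) (lam : ∀ N : ℕ, Fin N → ℝ), Spec μ e R lam →
          Tendsto (fun N : ℕ => ∫ U, (pr β (lam N) U - L) ^ 2 ∂law N) atTop (𝓝 0) := by
  classical
  set ρ : ℝ := 1 / (25 * β + 25)
  have hρ : 0 < ρ := by positivity
  set h : ℕ → ℝ := fun j => ρ * (1 / ((j : ℝ) + 1))
  have hh : ∀ j, 0 < h j := fun j => by positivity
  have hhρ : ∀ j, h j ≤ ρ := fun j =>
    mul_le_of_le_one_right hρ.le (by rw [div_le_one (by positivity)]; linarith [j.cast_nonneg (α := ℝ)])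
  set r' := max r ρ
  have hβr' : β * r' ≤ 1 / 25 := by
    rcases max_choice r ρ with h1 | h1 <;> simp only [r', h1]
    · exact hβr
    · simp only [ρ]; rw [mul_one_div, div_le_iff₀ (by positivity)]; linarith
  set ψ : ℕ → ℝ → ℝ := fun j => grid r (h j)
  have hg := fun j => grid_facts hr (hh j)
  have hψ : ∀ j, Measurable (ψ j) := fun j => (hg j).1
  have hstep : ∀ j, ∃ (μ : Measure ℝ) (e L : ℝ), Step γ β (bnd γ σ r') (σ.map (ψ j)) μ e L := fun j => by
    obtain ⟨S, hS, h0, hb⟩ := (hg j).2.1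
    exact exists_step γ (hψ j) hS h0 (fun s hs => (hb s hs).trans (max_le_max le_rfl (hhρ j))) hβ hβr'
  choose m E Ls hm using hstep
  set B := bnd γ σ r'
  have hh0 : Tendsto h atTop (𝓝 0) := by
    simpa [h] using (tendsto_one_div_add_atTop_nhds_zero_nat (𝕜 := ℝ)).const_mul ρ
  have hlim : ∀ᵐ x ∂σ, Tendsto (fun j => ψ j x) atTop (𝓝 x) := hσ.mono fun x hx => by
    rw [tendsto_iff_norm_sub_tendsto_zero]
    exact squeeze_zero (fun j => norm_nonneg _) (fun j => ((hg j).2.2 x hx).1)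
      (by simpa using hh0.const_mul 2)
  obtain ⟨μ, φ, hμp, hφ, hlev, hμB, hweak⟩ :=
    exists_limit γ hψ hlim (fun j => (hm j).prob) (fun j => (hm j).lev) fun j => (hm j).supp
  obtain ⟨e, he, htop⟩ := exists_top_end hμB
  have hsemi : ∀ η, 0 < η → ∀ᶠ j in atTop, E j ≤ e + η := fun η hη =>
    top_semicont hσ hlev he hψ (fun j x hx => ((hg j).2.2 x hx).2) hlim (fun j => (hm j).prob)
      (fun j => (hm j).lev) (fun j => (hm j).top) hη
  have huniq : ∀ μ' : Measure ℝ, IsProbabilityMeasure μ' → Lev γ σ μ' → μ' = μ := fun μ' hp hl =>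
    Lev.unique (hl.abs_le_bnd hr hσ) (hlev.abs_le_bnd hr hσ) hl hlev
  obtain ⟨L, φ', hφ', hL⟩ : ∃ (L : ℝ) (φ' : ℕ → ℕ), StrictMono φ' ∧
      ((∃ law : ∀ N : ℕ, Measure (Fin N → Fin N → ℝ), (∀ N, IsProbabilityMeasure (law N)) ∧ ∀ N, LeftInv (law N)) →
        Tendsto (fun j => Ls (φ (φ' j))) atTop (𝓝 L)) := by
    by_cases hex : ∃ law : ∀ N : ℕ, Measure (Fin N → Fin N → ℝ),
        (∀ N, IsProbabilityMeasure (law N)) ∧ ∀ N, LeftInv (law N)
    · obtain ⟨law, hp, hlaw⟩ := hex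
      obtain ⟨L, -, φ', hφ', hL⟩ := (isCompact_Icc (a := -(β / 2 * (B + 1) + 1))
        (b := β / 2 * (B + 1) + 1)).tendsto_subseq (x := fun j => Ls (φ j))
          fun j => abs_le.1 ((hm (φ j)).abs_le hβ law hp hlaw)
      exact ⟨L, φ', hφ', fun _ => hL⟩
    · exact ⟨0, id, strictMono_id, fun h => absurd h hex⟩
  have hsub := (hφ.comp hφ').tendsto_atTop
  refine ⟨μ, hμp, B, e, L, hμB, hlev, huniq, he, htop, fun law hlp hlaw R lam hlam => ?_⟩
  exact diag_limit hβ hμB htop (fun j => hm (φ (φ' j)))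
    (fun f hf => (hweak f hf).comp hφ'.tendsto_atTop) (fun η hη => hsub.eventually (hsemi η hη))
    (hL ⟨law, hlp, hlaw⟩) hlp hlaw hlam

end Vale.Agent.P166.Levy
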